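import Mathlib

/-!
Words as index functions: closeness through common sublists, monotone matchings, gap counting.
-/

namespace Vale.Agent.P238

open List

variable {α β : Type}

/-- The words `u` and `v` of length `L` have a common sublist missing at most `k` symbols. -/
def Close (u v : ℕ → α) (L k : ℕ) : Prop :=
  ∃ c : List α, c <+ (range L).map u ∧ c <+ (range L).map v ∧ L ≤ c.length + k

lemma Close.mono {u v : ℕ → α} {L k k' : ℕ} (h : Close u v L k) (hk : k ≤ k') :
    Close u v L k' := by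
  obtain ⟨c, h1, h2, h3⟩ := h
  exact ⟨c, h1, h2, by omega⟩

lemma map_range_congr {u u' : ℕ → α} {L : ℕ} (hu : ∀ p < L, u' p = u p) :
    (range L).map u' = (range L).map u :=
  map_congr_left fun p hp => hu p (mem_range.1 hp)

lemma Close.congr {u v u' v' : ℕ → α} {L k : ℕ} (h : Close u v L k)
    (hu : ∀ p < L, u' p = u p) (hv : ∀ p < L, v' p = v p) : Close u' v' L k := by
  obtain ⟨c, h1, h2, h3⟩ := h
  exact ⟨c, by rwa [map_range_congr hu], by rwa [map_range_congr hv], h3⟩

lemma close_refl {u v : ℕ → α} {L : ℕ} (h : ∀ p < L, v p = u p) : Close u v L 0 :=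
  ⟨(range L).map u, Sublist.refl _, by rw [map_range_congr h], by simp⟩

lemma close_triv (u v : ℕ → α) (L : ℕ) : Close u v L L :=
  ⟨[], nil_sublist _, nil_sublist _, by simp⟩

lemma Close.map {u v : ℕ → α} {L k : ℕ} (h : Close u v L k) (f : α → β) :
    Close (fun p => f (u p)) (fun p => f (v p)) L k := by
  obtain ⟨c, h1, h2, h3⟩ := h
  refine ⟨c.map f, ?_, ?_, by simpa using h3⟩
  · have := h1.map f
    rwa [map_map] at this
  · have := h2.map f
    rwa [map_map] at this

lemma map_range_add (u : ℕ → α) (n K : ℕ) :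
    (range (n + K)).map u = (range n).map u ++ (range K).map (fun p => u (n + p)) := by
  rw [range_add, map_append, map_map]
  rfl

lemma Close.append {u v : ℕ → α} {n K k1 k2 : ℕ} (h1 : Close u v n k1)
    (h2 : Close (fun p => u (n + p)) (fun p => v (n + p)) K k2) : Close u v (n + K) (k1 + k2) := by
  obtain ⟨c, a1, a2, a3⟩ := h1
  obtain ⟨d, b1, b2, b3⟩ := h2
  refine ⟨c ++ d, ?_, ?_, ?_⟩
  · rw [map_range_add]; exact a1.append b1
  · rw [map_range_add]; exact a2.append b2
  · rw [length_append]; omega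

lemma close_blocks {u v : ℕ → α} (K : ℕ) (k : ℕ → ℕ) : ∀ s : ℕ,
    (∀ t < s, Close (fun p => u (t * K + p)) (fun p => v (t * K + p)) K (k t)) →
    Close u v (s * K) (∑ t ∈ Finset.range s, k t) := by
  intro s
  induction s with
  | zero => intro _; simpa using close_triv u v 0
  | succ s ih =>
    intro h
    rw [Finset.sum_range_succ, Nat.succ_mul]
    exact (ih fun t ht => h t (by omega)).append (h s (by omega))

lemma close_shift {u v : ℕ → α} {L : ℕ} (D : ℕ) (h : ∀ p, p + D < L → v p = u (p + D)) :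
    Close u v L D := by
  by_cases hD : L ≤ D
  · exact (close_triv u v L).mono hD
  · obtain ⟨n, rfl⟩ : ∃ n, L = D + n := ⟨L - D, by omega⟩
    refine ⟨(range n).map v, ?_, ?_, by simp; omega⟩
    · rw [map_range_add]
      have : (range n).map v = (range n).map (fun p => u (D + p)) :=
        map_range_congr fun p hp => by rw [h p (by omega), Nat.add_comm]
      rw [this]
      exact sublist_append_right _ _
    · rw [Nat.add_comm D n, map_range_add]
      exact sublist_append_left _ _

/-- Replace every symbol by its code word of length `K`. -/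
def enc (code : α → ℕ → β) (K : ℕ) (u : ℕ → α) (p : ℕ) : β := code (u (p / K)) (p % K)

lemma map_range_enc (code : α → ℕ → β) {K : ℕ} (hK : 0 < K) (u : ℕ → α) : ∀ L : ℕ,
    (range (L * K)).map (enc code K u) =
      ((range L).map u).flatMap (fun a => (range K).map (code a)) := by
  intro L
  induction L with
  | zero => simp
  | succ L ih =>
    rw [Nat.succ_mul, map_range_add, ih, range_succ, map_append, flatMap_append]
    congr 1
    simp only [map_cons, map_nil, flatMap_cons, flatMap_nil, append_nil]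
    apply map_range_congr
    intro p hp
    unfold enc
    have e1 : (L * K + p) / K = L := by
      rw [Nat.mul_comm, Nat.mul_add_div hK, Nat.div_eq_of_lt hp]; rfl
    have e2 : (L * K + p) % K = p := by
      rw [Nat.mul_comm, Nat.mul_add_mod, Nat.mod_eq_of_lt hp]
    rw [e1, e2]

lemma Close.enc {u v : ℕ → α} {L k : ℕ} (h : Close u v L k) (code : α → ℕ → β) {K : ℕ}
    (hK : 0 < K) : Close (enc code K u) (enc code K v) (L * K) (k * K) := by
  obtain ⟨c, h1, h2, h3⟩ := h
  refine ⟨c.flatMap (fun a => (range K).map (code a)), ?_, ?_, ?_⟩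
  · rw [map_range_enc code hK]; exact h1.flatMap _
  · rw [map_range_enc code hK]; exact h2.flatMap _
  · have : (c.flatMap (fun a => (range K).map (code a))).length = c.length * K := by
      rw [length_flatMap]
      simp
    rw [this, ← Nat.add_mul]
    exact Nat.mul_le_mul_right K h3

/-- A monotone matching between equal symbols of two words of length `L`. -/
def IsMatch (u v : ℕ → α) (L : ℕ) (S : Finset (ℕ × ℕ)) : Prop :=
  (∀ a ∈ S, a.1 < L ∧ a.2 < L ∧ u a.1 = v a.2) ∧
    ∀ a ∈ S, ∀ a' ∈ S, (a.1 < a'.1 ↔ a.2 < a'.2)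

lemma emb_of_sublist {u : ℕ → α} {L : ℕ} {l : List α} (h : l <+ (range L).map u) :
    ∃ f : ℕ ↪o ℕ, ∀ i (hi : i < l.length), f i < L ∧ l[i] = u (f i) := by
  obtain ⟨f, hf⟩ := sublist_iff_exists_orderEmbedding_getElem?_eq.1 h
  refine ⟨f, fun i hi => ?_⟩
  have h1 := hf i
  rw [getElem?_eq_getElem hi] at h1
  have h2 : f i < ((range L).map u).length := by
    by_contra hc
    rw [getElem?_eq_none (by omega)] at h1
    cases h1
  rw [getElem?_eq_getElem h2] at h1
  have h3 : f i < L := by simpa using h2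
  refine ⟨h3, ?_⟩
  simpa using h1

lemma match_of_sublist {u v : ℕ → α} {L : ℕ} {c : List α} (hu : c <+ (range L).map u)
    (hv : c <+ (range L).map v) : ∃ S, IsMatch u v L S ∧ S.card = c.length := by
  obtain ⟨f, hf⟩ := emb_of_sublist hu
  obtain ⟨g, hg⟩ := emb_of_sublist hv
  refine ⟨(Finset.range c.length).image (fun i => (f i, g i)), ⟨?_, ?_⟩, ?_⟩
  · intro a ha
    obtain ⟨i, hi, rfl⟩ := Finset.mem_image.1 ha
    have hi' := Finset.mem_range.1 hi
    exact ⟨(hf i hi').1, (hg i hi').1, by rw [← (hf i hi').2, ← (hg i hi').2]⟩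
  · intro a ha a' ha'
    obtain ⟨i, hi, rfl⟩ := Finset.mem_image.1 ha
    obtain ⟨j, hj, rfl⟩ := Finset.mem_image.1 ha'
    simp only [OrderEmbedding.lt_iff_lt]
  · rw [Finset.card_image_of_injective, Finset.card_range]
    intro i j hij
    exact f.injective (Prod.mk.inj hij).1

section gap

variable {S : Finset (ℕ × ℕ)}

lemma fst_injOn (hm : ∀ a ∈ S, ∀ a' ∈ S, (a.1 < a'.1 ↔ a.2 < a'.2)) :
    Set.InjOn Prod.fst (S : Set (ℕ × ℕ)) := by
  intro a ha a' ha' h
  have h1 := hm a ha a' ha'
  have h2 := hm a' ha' a ha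
  apply Prod.ext h
  omega

lemma snd_injOn (hm : ∀ a ∈ S, ∀ a' ∈ S, (a.1 < a'.1 ↔ a.2 < a'.2)) :
    Set.InjOn Prod.snd (S : Set (ℕ × ℕ)) := by
  intro a ha a' ha' h
  have h1 := hm a ha a' ha'
  have h2 := hm a' ha' a ha
  refine Prod.ext ?_ h
  omega

lemma card_row_le (hm : ∀ a ∈ S, ∀ a' ∈ S, (a.1 < a'.1 ↔ a.2 < a'.2)) {K : ℕ} (hK : 0 < K)
    (t : ℕ) : (S.filter (fun a => a.1 / K = t)).card ≤ K := by
  have h : (S.filter (fun a => a.1 / K = t)).card ≤ (Finset.Ico (t * K) (t * K + K)).card := by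
    apply Finset.card_le_card_of_injOn Prod.fst
    · intro a ha
      have ha' := (Finset.mem_filter.1 (Finset.mem_coe.1 ha)).2
      have e1 := Nat.div_add_mod a.1 K
      have e2 := Nat.mod_lt a.1 hK
      rw [ha', Nat.mul_comm] at e1
      simp only [Finset.coe_Ico, Set.mem_Ico]
      omega
    · exact (fst_injOn hm).mono (fun a ha => (Finset.mem_filter.1 (Finset.mem_coe.1 ha)).1)
  simpa using h

lemma gap_bound (hm : ∀ a ∈ S, ∀ a' ∈ S, (a.1 < a'.1 ↔ a.2 < a'.2)) (s K L' : ℕ) (hK : 0 < K)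
    (h1 : ∀ a ∈ S, a.1 < s * K) (h2 : ∀ a ∈ S, a.2 < L') (κ : ℕ → ℝ)
    (h : ∀ t < s, ((S.filter (fun a => a.1 / K = t)).card : ℝ) + κ t ≤ K ∨
      ∃ a ∈ S, ∃ a' ∈ S, a.1 / K = t ∧ a'.1 / K = t ∧ (a.2 : ℝ) + κ t + 1 ≤ a'.2 ∧
        ∀ e ∈ S, e.1 / K = t → e.2 ≤ a.2 ∨ a'.2 ≤ e.2) :
    2 * (S.card : ℝ) + ∑ t ∈ Finset.range s, κ t ≤ s * K + L' := by
  classical
  set T : ℕ → Finset ℕ := fun t => (Finset.range L').filter
    (fun q => ∃ a ∈ S, ∃ a' ∈ S, a.1 / K = t ∧ a'.1 / K = t ∧ a.2 ≤ q ∧ q ≤ a'.2) with hT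
  have hlt : ∀ t t' q, t < t' → q ∈ T t → q ∈ T t' → False := by
    intro t t' q htt hq hq'
    obtain ⟨-, a, ha, a', ha', e1, e2, e3, e4⟩ := Finset.mem_filter.1 hq
    obtain ⟨-, b, hb, b', hb', f1, f2, f3, f4⟩ := Finset.mem_filter.1 hq'
    have g1 : a'.1 < b.1 := by
      apply Nat.lt_of_div_lt_div (c := K)
      omega
    have g2 := (hm a' ha' b hb).1 g1
    omega
  have hsumT : ∑ t ∈ Finset.range s, (T t).card ≤ L' := by
    rw [← Finset.card_biUnion]
    · have : (Finset.range s).biUnion T ⊆ Finset.range L' := by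
        intro q hq
        obtain ⟨t, -, hq⟩ := Finset.mem_biUnion.1 hq
        exact (Finset.mem_filter.1 hq).1
      simpa using Finset.card_le_card this
    · intro t _ t' _ hne
      rw [Function.onFun, Finset.disjoint_left]
      intro q hq hq'
      rcases Nat.lt_or_gt_of_ne hne with h' | h'
      · exact hlt t t' q h' hq hq'
      · exact hlt t' t q h' hq' hq
  have hS : S.card = ∑ t ∈ Finset.range s, (S.filter (fun a => a.1 / K = t)).card := by
    apply Finset.card_eq_sum_card_fiberwise (f := fun a : ℕ × ℕ => a.1 / K)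
    intro a ha
    have := h1 a ha
    simp only [Finset.coe_range, Set.mem_Iio]
    exact (Nat.div_lt_iff_lt_mul hK).2 this
  have hrow : ∀ t ∈ Finset.range s,
      2 * ((S.filter (fun a => a.1 / K = t)).card : ℝ) + κ t ≤ K + (T t).card := by
    intro t ht
    have hinj : Set.InjOn Prod.snd ((S.filter (fun a => a.1 / K = t) : Finset (ℕ × ℕ)) :
        Set (ℕ × ℕ)) :=
      (snd_injOn hm).mono (fun a ha => (Finset.mem_filter.1 (Finset.mem_coe.1 ha)).1)
    have hsub : (S.filter (fun a => a.1 / K = t)).image Prod.snd ⊆ T t := by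
      intro q hq
      obtain ⟨a, ha, rfl⟩ := Finset.mem_image.1 hq
      obtain ⟨ha1, ha2⟩ := Finset.mem_filter.1 ha
      exact Finset.mem_filter.2 ⟨Finset.mem_range.2 (h2 a ha1), a, ha1, a, ha1, ha2, ha2,
        le_rfl, le_rfl⟩
    have hc := Finset.card_image_of_injOn hinj
    rcases h t (Finset.mem_range.1 ht) with h3 | ⟨a, ha, a', ha', e1, e2, e3, e4⟩
    · have h4 : (S.filter (fun a => a.1 / K = t)).card ≤ (T t).card := by
        rw [← hc]; exact Finset.card_le_card hsub
      have h5 : ((S.filter (fun a => a.1 / K = t)).card : ℝ) ≤ (T t).card := by exact_mod_cast h4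
      linarith
    · have h4 : (S.filter (fun a => a.1 / K = t)).image Prod.snd ∪ Finset.Ioo a.2 a'.2 ⊆ T t := by
        apply Finset.union_subset hsub
        intro q hq
        obtain ⟨q1, q2⟩ := Finset.mem_Ioo.1 hq
        exact Finset.mem_filter.2 ⟨Finset.mem_range.2 (q2.trans (h2 a' ha')), a, ha, a', ha',
          e1, e2, q1.le, q2.le⟩
      have h5 : Disjoint ((S.filter (fun a => a.1 / K = t)).image Prod.snd)
          (Finset.Ioo a.2 a'.2) := by
        rw [Finset.disjoint_left]
        intro q hq hq'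
        obtain ⟨e, he, rfl⟩ := Finset.mem_image.1 hq
        obtain ⟨he1, he2⟩ := Finset.mem_filter.1 he
        obtain ⟨q1, q2⟩ := Finset.mem_Ioo.1 hq'
        have := e4 e he1 he2
        omega
      have h6 := Finset.card_le_card h4
      rw [Finset.card_union_of_disjoint h5, hc, Nat.card_Ioo] at h6
      have h7 := card_row_le hm hK t
      have h8 : a'.2 + (S.filter (fun a => a.1 / K = t)).card ≤ (T t).card + a.2 + 1 := by omega
      have h9 : (a'.2 : ℝ) + (S.filter (fun a => a.1 / K = t)).card ≤ (T t).card + a.2 + 1 := by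
        exact_mod_cast h8
      have h10 : ((S.filter (fun a => a.1 / K = t)).card : ℝ) ≤ K := by exact_mod_cast h7
      linarith
  have hsum := Finset.sum_le_sum hrow
  rw [Finset.sum_add_distrib, Finset.sum_add_distrib, ← Finset.mul_sum] at hsum
  have e1 : (S.card : ℝ) = ∑ t ∈ Finset.range s, ((S.filter (fun a => a.1 / K = t)).card : ℝ) := by
    exact_mod_cast hS
  have e2 : ∑ t ∈ Finset.range s, ((T t).card : ℝ) ≤ L' := by exact_mod_cast hsumT
  rw [← e1, Finset.sum_const, Finset.card_range, nsmul_eq_mul] at hsum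
  linarith

end gap

end Vale.Agent.P238
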