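import Mathlib
import Vale.Agent.P238.Match

/-!
A self-synchronizing binary code: matchings of encoded words give matchings of the words.
-/

namespace Vale.Agent.P238

/-- The code word `1 1 0 b_0 0 b_1 0 ...` of the symbol `σ` with binary digits `b_i`. -/
def code (σ j : ℕ) : Bool :=
  if j ≤ 1 then true else if j % 2 = 0 then false else σ.testBit ((j - 3) / 2)

lemma code_sync {m : ℕ} {v : ℕ → ℕ} {y : ℕ} (h0 : enc code (2 * m + 3) v y = true)
    (h1 : enc code (2 * m + 3) v (y + 1) = true) : y % (2 * m + 3) = 0 := by
  by_contra hne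
  have hlt : y % (2 * m + 3) < 2 * m + 3 := Nat.mod_lt _ (by omega)
  unfold enc code at h0 h1
  by_cases hl : y % (2 * m + 3) = 2 * m + 2
  · rw [hl, if_neg (by omega), if_pos (by omega)] at h0
    cases h0
  · have e : (y + 1) % (2 * m + 3) = y % (2 * m + 3) + 1 := by
      rw [Nat.add_mod, Nat.mod_eq_of_lt (a := 1) (by omega), Nat.mod_eq_of_lt (by omega)]
    rw [e] at h1
    by_cases h2 : y % (2 * m + 3) % 2 = 0
    · rw [if_neg (by omega), if_pos h2] at h0
      cases h0
    · rw [if_neg (by omega), if_pos (by omega)] at h1
      cases h1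

lemma enc_at {α β : Type} (cd : α → ℕ → β) {K : ℕ} (u : ℕ → α) (p : ℕ) {j : ℕ} (hj : j < K) :
    enc cd K u (p * K + j) = cd (u p) j := by
  unfold enc
  have e1 : (p * K + j) / K = p := by
    rw [Nat.mul_comm, Nat.mul_add_div (by omega), Nat.div_eq_of_lt hj]; rfl
  have e2 : (p * K + j) % K = j := by
    rw [Nat.mul_comm, Nat.mul_add_mod, Nat.mod_eq_of_lt hj]
  rw [e1, e2]

lemma code_inj {m a b : ℕ} (ha : a < 2 ^ m) (hb : b < 2 ^ m)
    (h : ∀ j < 2 * m + 3, code a j = code b j) : a = b := by
  apply Nat.eq_of_testBit_eq
  intro i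
  by_cases hi : i < m
  · have := h (2 * i + 3) (by omega)
    unfold code at this
    rw [if_neg (by omega), if_neg (by omega), if_neg (by omega), if_neg (by omega)] at this
    have e : (2 * i + 3 - 3) / 2 = i := by omega
    rwa [e] at this
  · have hp : 2 ^ m ≤ 2 ^ i := Nat.pow_le_pow_right (by norm_num) (by omega)
    rw [Nat.testBit_eq_false_of_lt (by omega), Nat.testBit_eq_false_of_lt (by omega)]

lemma code_far {u v : ℕ → ℕ} {n m : ℕ} (hu : ∀ p < n, u p < 2 ^ m) (hv : ∀ p < n, v p < 2 ^ m)
    {S : Finset (ℕ × ℕ)}
    (hS : IsMatch (enc code (2 * m + 3) u) (enc code (2 * m + 3) v) (n * (2 * m + 3)) S) :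
    ∃ T, IsMatch u v n T ∧ 2 * (S.card : ℝ) + (n - T.card) ≤ 2 * (n * (2 * m + 3)) := by
  classical
  obtain ⟨K, hK⟩ : ∃ K, K = 2 * m + 3 := ⟨_, rfl⟩
  have hK0 : 0 < K := by omega
  rw [← hK] at hS
  obtain ⟨hS1, hm⟩ := hS
  set T : Finset (ℕ × ℕ) := (Finset.range n ×ˢ Finset.range n).filter
    (fun a => ∀ j < K, (a.1 * K + j, a.2 * K + j) ∈ S) with hT
  have hTm : ∀ a ∈ T, a.1 < n ∧ a.2 < n ∧ ∀ j < K, (a.1 * K + j, a.2 * K + j) ∈ S := by
    intro a ha
    obtain ⟨h1, h2⟩ := Finset.mem_filter.1 ha
    obtain ⟨h3, h4⟩ := Finset.mem_product.1 h1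
    exact ⟨Finset.mem_range.1 h3, Finset.mem_range.1 h4, h2⟩
  have hTmono : ∀ a ∈ T, ∀ a' ∈ T, (a.1 < a'.1 ↔ a.2 < a'.2) := by
    intro a ha a' ha'
    have := hm _ ((hTm a ha).2.2 0 hK0) _ ((hTm a' ha').2.2 0 hK0)
    simp only [Nat.add_zero] at this
    rw [Nat.mul_lt_mul_right hK0, Nat.mul_lt_mul_right hK0] at this
    exact this
  refine ⟨T, ⟨fun a ha => ?_, hTmono⟩, ?_⟩
  · obtain ⟨h1, h2, h3⟩ := hTm a ha
    refine ⟨h1, h2, code_inj (hu _ h1) (hv _ h2) fun j hj => ?_⟩
    have := (hS1 _ (h3 j (by omega))).2.2
    simp only at this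
    rwa [enc_at _ _ _ (by omega), enc_at _ _ _ (by omega)] at this
  · have key := gap_bound hm n K (n * K) hK0 (fun a ha => (hS1 a ha).1)
      (fun a ha => (hS1 a ha).2.1) (fun t => if t ∈ T.image Prod.fst then 0 else 1) ?_
    · have e1 : ∑ t ∈ Finset.range n, (if t ∈ T.image Prod.fst then (0 : ℝ) else 1) =
          n - T.card := by
        have e2 : ∀ t, (if t ∈ T.image Prod.fst then (0 : ℝ) else 1) =
            1 - (if t ∈ T.image Prod.fst then (1 : ℝ) else 0) := by
          intro t; split_ifs <;> simp
        have e3 : (Finset.range n).filter (fun t => t ∈ T.image Prod.fst) = T.image Prod.fst := by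
          ext t
          simp only [Finset.mem_filter, Finset.mem_range, and_iff_right_iff_imp]
          intro ht
          obtain ⟨a, ha, rfl⟩ := Finset.mem_image.1 ht
          exact (hTm a ha).1
        simp only [e2]
        rw [Finset.sum_sub_distrib, Finset.sum_boole, e3,
          Finset.card_image_of_injOn (fst_injOn hTmono)]
        simp
      rw [e1] at key
      have e4 : (K : ℝ) = 2 * m + 3 := by rw [hK]; push_cast; ring
      rw [← e4]
      push_cast at key
      linarith
    · intro t ht
      have hrow := card_row_le hm hK0 t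
      by_cases hmem : t ∈ T.image Prod.fst
      · left
        simp only [hmem, if_true, add_zero]
        exact_mod_cast hrow
      · simp only [hmem, if_false]
        by_contra hcon
        rw [not_or] at hcon
        obtain ⟨c1, c2⟩ := hcon
        have c3 : K ≤ (S.filter (fun a => a.1 / K = t)).card := by
          by_contra c4
          apply c1
          have : (S.filter (fun a => a.1 / K = t)).card + 1 ≤ K := by omega
          exact_mod_cast this
        have hdiv : ∀ j < K, (t * K + j) / K = t := by
          intro j hj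
          rw [Nat.mul_comm, Nat.mul_add_div hK0, Nat.div_eq_of_lt hj]; rfl
        have hall : ∀ j < K, ∃ y, (t * K + j, y) ∈ S := by
          intro j hj
          have hsub : (S.filter (fun a => a.1 / K = t)).image Prod.fst ⊆
              Finset.Ico (t * K) (t * K + K) := by
            intro x hx
            obtain ⟨a, ha, rfl⟩ := Finset.mem_image.1 hx
            have ha' := (Finset.mem_filter.1 ha).2
            have e1 := Nat.div_add_mod a.1 K
            have e2 := Nat.mod_lt a.1 hK0
            rw [ha', Nat.mul_comm] at e1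
            rw [Finset.mem_Ico]
            omega
          have hinj : Set.InjOn Prod.fst ((S.filter (fun a => a.1 / K = t) : Finset (ℕ × ℕ)) :
              Set (ℕ × ℕ)) :=
            (fst_injOn hm).mono (fun a ha => (Finset.mem_filter.1 (Finset.mem_coe.1 ha)).1)
          have heq := Finset.eq_of_subset_of_card_le hsub (by
            rw [Finset.card_image_of_injOn hinj]; simpa using c3)
          have : t * K + j ∈ (S.filter (fun a => a.1 / K = t)).image Prod.fst := by
            rw [heq, Finset.mem_Ico]; omega
          obtain ⟨a, ha, e⟩ := Finset.mem_image.1 this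
          refine ⟨a.2, ?_⟩
          rw [← e]
          exact (Finset.mem_filter.1 ha).1
        obtain ⟨y0, hy0⟩ := hall 0 hK0
        have hrun : ∀ j < K, (t * K + j, y0 + j) ∈ S := by
          intro j
          induction j with
          | zero => intro _; exact hy0
          | succ j ih =>
            intro hj
            have ha := ih (by omega)
            obtain ⟨y, hy⟩ := hall (j + 1) hj
            have l1 := (hm _ ha _ hy).1 (by simp)
            simp only at l1
            have l2 : y ≤ y0 + j + 1 := by
              by_contra l3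
              apply c2
              refine ⟨_, ha, _, hy, hdiv j (by omega), hdiv (j + 1) hj, ?_, fun e he _ => ?_⟩
              · have : y0 + j + 1 + 1 ≤ y := by omega
                exact_mod_cast this
              · have m1 := hm _ ha e he
                have m2 := hm e he _ hy
                simp only at m1 m2 ⊢
                omega
            have : y = y0 + (j + 1) := by omega
            rw [← this]; exact hy
        have b0 := (hS1 _ (hrun 0 (by omega))).2.2
        have b1 := (hS1 _ (hrun 1 (by omega))).2.2
        simp only at b0 b1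
        rw [enc_at _ _ _ (by omega)] at b0 b1
        have hy : y0 % K = 0 := by
          rw [hK] at b0 b1 ⊢
          exact code_sync b0.symm b1.symm
        obtain ⟨q, hq⟩ : ∃ q, y0 = q * K := ⟨y0 / K, by
          have := Nat.div_add_mod y0 K
          rw [hy, Nat.mul_comm] at this
          omega⟩
        have hqn : q < n := by
          have := (hS1 _ hy0).2.1
          simp only at this
          rw [hq] at this
          exact Nat.lt_of_mul_lt_mul_right this
        apply hmem
        refine Finset.mem_image.2 ⟨(t, q), ?_, rfl⟩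
        refine Finset.mem_filter.2 ⟨Finset.mem_product.2 ⟨Finset.mem_range.2 ht,
          Finset.mem_range.2 hqn⟩, fun j hj => ?_⟩
        have := hrun j hj
        rwa [hq] at this

end Vale.Agent.P238
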