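import Mathlib

/-!
Cut semimetrics, random partitions and the multiset embedding of Ostrovsky and Rabani.
-/

namespace Vale.Agent.P238

open Finset

variable {X Y : Type}

/-- `d` is a finite nonnegative combination of cut semimetrics. -/
def IsCut (d : X → X → ℝ) : Prop :=
  ∃ (Ω : Type) (_ : Fintype Ω) (w : Ω → ℝ) (h : Ω → X → Bool), (∀ o, 0 ≤ w o) ∧
    ∀ x y, d x y = ∑ o, if h o x = h o y then 0 else w o

lemma IsCut.nonneg {d : X → X → ℝ} (hd : IsCut d) (x y : X) : 0 ≤ d x y := by
  obtain ⟨Ω, _, w, h, hw, e⟩ := hd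
  rw [e]
  exact sum_nonneg fun o _ => by split_ifs; exacts [le_rfl, hw o]

lemma IsCut.self {d : X → X → ℝ} (hd : IsCut d) (x : X) : d x x = 0 := by
  obtain ⟨Ω, _, w, h, hw, e⟩ := hd
  simp [e]

lemma IsCut.symm {d : X → X → ℝ} (hd : IsCut d) (x y : X) : d x y = d y x := by
  obtain ⟨Ω, _, w, h, hw, e⟩ := hd
  simp only [e, eq_comm]

lemma IsCut.triangle {d : X → X → ℝ} (hd : IsCut d) (x y z : X) : d x z ≤ d x y + d y z := by
  obtain ⟨Ω, _, w, h, hw, e⟩ := hd
  rw [e, e, e, ← sum_add_distrib]
  apply sum_le_sum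
  intro o _
  have := hw o
  cases h o x <;> cases h o y <;> cases h o z <;> simp <;> linarith

lemma IsCut.smul {d : X → X → ℝ} (hd : IsCut d) {c : ℝ} (hc : 0 ≤ c) :
    IsCut (fun x y => c * d x y) := by
  obtain ⟨Ω, i, w, h, hw, e⟩ := hd
  refine ⟨Ω, i, fun o => c * w o, h, fun o => mul_nonneg hc (hw o), fun x y => ?_⟩
  simp only [e, mul_sum, mul_ite, mul_zero]

lemma IsCut.comap {d : X → X → ℝ} (hd : IsCut d) (f : Y → X) :
    IsCut (fun x y => d (f x) (f y)) := by
  obtain ⟨Ω, i, w, h, hw, e⟩ := hd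
  exact ⟨Ω, i, w, fun o y => h o (f y), hw, fun x y => e _ _⟩

lemma isCut_sum {ι : Type} [Fintype ι] {d : ι → X → X → ℝ} (hd : ∀ i, IsCut (d i)) :
    IsCut (fun x y => ∑ i, d i x y) := by
  choose Ω fi w h hw e using hd
  refine ⟨Σ i, Ω i, inferInstance, fun o => w o.1 o.2, fun o => h o.1 o.2, fun o => hw _ _,
    fun x y => ?_⟩
  rw [Fintype.sum_sigma]
  exact sum_congr rfl fun i _ => e i x y

lemma isCut_range {d : ℕ → X → X → ℝ} (n : ℕ) (hd : ∀ i, IsCut (d i)) :
    IsCut (fun x y => ∑ i ∈ range n, d i x y) := by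
  have := isCut_sum (ι := Fin n) (d := fun i => d i) fun i => hd i
  have e : (fun x y => ∑ i ∈ range n, d i x y) = fun x y => ∑ i : Fin n, d i x y := by
    funext x y
    exact (Fin.sum_univ_eq_sum_range (fun i => d i x y) n).symm
  rw [e]
  exact this

lemma isCut_nat (F : X → ℕ) (s : ℕ) (hF : ∀ x, F x ≤ s) :
    IsCut (fun x y => |(F x : ℝ) - F y|) := by
  refine ⟨Fin s, inferInstance, fun _ => 1, fun j x => decide (j < F x), fun _ => zero_le_one,
    fun x y => ?_⟩
  rw [Fin.sum_univ_eq_sum_range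
    (fun j => if decide (j < F x) = decide (j < F y) then (0 : ℝ) else 1) s]
  have h1 := hF x
  have h2 := hF y
  beta_reduce
  generalize F x = a at *
  generalize F y = b at *
  have e : ∀ j, (if decide (j < a) = decide (j < b) then (0 : ℝ) else 1) =
      if j ∈ Ico (min a b) (max a b) then 1 else 0 := by
    intro j
    simp only [decide_eq_decide, mem_Ico]
    split_ifs <;> first | rfl | omega
  simp only [e]
  have e2 : (range s).filter (fun j => j ∈ Ico (min a b) (max a b)) = Ico (min a b) (max a b) := by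
    ext j
    simp only [mem_filter, mem_range, mem_Ico]
    omega
  rw [sum_boole, e2, Nat.card_Ico]
  rcases le_total a b with h | h
  · have : (a : ℝ) ≤ b := by exact_mod_cast h
    rw [min_eq_left h, max_eq_right h, Nat.cast_sub h, abs_of_nonpos (by linarith)]
    ring
  · have : (b : ℝ) ≤ a := by exact_mod_cast h
    rw [min_eq_right h, max_eq_left h, Nat.cast_sub h, abs_of_nonneg (by linarith)]

lemma IsCut.partition {d : X → X → ℝ} (hd : IsCut d) {lam : ℝ} (hl : 0 ≤ lam) :
    ∃ (Ω : Type) (_ : Fintype Ω) (μ : Ω → ℝ) (Λ : Type) (_ : Fintype Λ) (_ : DecidableEq Λ)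
      (P : Ω → X → Λ), (∀ o, 0 ≤ μ o) ∧ ∑ o, μ o = 1 ∧
      ∀ x y, ∑ o, μ o * (if P o x = P o y then 1 else 0) = Real.exp (-(lam * d x y)) := by
  classical
  obtain ⟨Ω, _, w, h, hw, e⟩ := hd
  set g : Ω → Bool → ℝ := fun o b =>
    if b then 1 - Real.exp (-(lam * w o)) else Real.exp (-(lam * w o)) with hg
  have key : ∀ G : Ω → Bool → ℝ, ∑ u : Ω → Bool, ∏ o, G o (u o) = ∏ o, (G o true + G o false) := by
    intro G
    rw [← Fintype.piFinset_univ, ← prod_univ_sum]
    simp
  refine ⟨Ω → Bool, inferInstance, fun u => ∏ o, g o (u o), Ω → Bool, inferInstance,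
    inferInstance, fun u x o => u o && h o x, fun u => prod_nonneg fun o _ => ?_, ?_,
    fun x y => ?_⟩
  · simp only [hg]
    split_ifs
    · have : Real.exp (-(lam * w o)) ≤ 1 := Real.exp_le_one_iff.2 (by
        have := mul_nonneg hl (hw o); linarith)
      linarith
    · exact (Real.exp_pos _).le
  · rw [key]
    simp [hg]
  · have e1 : ∀ u : Ω → Bool, (∏ o, g o (u o)) *
        (if (fun o => u o && h o x) = (fun o => u o && h o y) then (1 : ℝ) else 0) =
        ∏ o, (g o (u o) * if (u o && h o x) = (u o && h o y) then 1 else 0) := by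
      intro u
      rw [prod_mul_distrib, prod_boole]
      simp only [funext_iff, mem_univ, true_imp_iff]
    simp only [e1]
    rw [key (fun o b => g o b * if (b && h o x) = (b && h o y) then 1 else 0), e, mul_sum,
      ← sum_neg_distrib, Real.exp_sum]
    apply prod_congr rfl
    intro o _
    by_cases hc : h o x = h o y
    · simp [hg, hc]
    · simp [hg, hc]

lemma IsCut.multiset {d : X → X → ℝ} (hd : IsCut d) {lam : ℝ} (hl : 0 ≤ lam) (s : ℕ) :
    ∃ D : (ℕ → X) → (ℕ → X) → ℝ, IsCut D ∧
      (∀ a b, D a b ≤ 2 * lam * ∑ t ∈ range s, d (a t) (b t)) ∧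
      (∀ a b, (∀ t, b (t + 1) = a t) → D a b ≤ 2) ∧
      (∀ a b (τ : ℝ), (∀ t < s, ∀ t' < s, τ ≤ d (a t) (b t')) →
        2 * s - 2 * s ^ 2 * Real.exp (-(lam * τ)) ≤ D a b) := by
  obtain ⟨Ω, _, μ, Λ, _, _, P, hμ, hμ1, hP⟩ := hd.partition hl
  set cnt : Ω → Λ → (ℕ → X) → ℕ := fun o l a => ((range s).filter (fun t => P o (a t) = l)).card
    with hcnt
  have hc : ∀ o l a, (cnt o l a : ℝ) = ∑ t ∈ range s, if P o (a t) = l then (1 : ℝ) else 0 := by
    intro o l a
    rw [sum_boole]
  have hone : ∀ l0 : Λ, ∑ l, (if l0 = l then (1 : ℝ) else 0) = 1 := by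
    intro l0; simp
  refine ⟨fun a b => ∑ o, μ o * ∑ l, |(cnt o l a : ℝ) - cnt o l b|, ?_, fun a b => ?_,
    fun a b hab => ?_, fun a b τ hτ => ?_⟩
  · apply isCut_sum
    intro o
    refine IsCut.smul (d := fun a b => ∑ l, |(cnt o l a : ℝ) - cnt o l b|) ?_ (hμ o)
    apply isCut_sum
    intro l
    apply isCut_nat (cnt o l) s
    intro a
    simpa using card_filter_le (range s) (fun t => P o (a t) = l)
  · have h1 : ∀ o, ∑ l, |(cnt o l a : ℝ) - cnt o l b| ≤
        ∑ t ∈ range s, 2 * (1 - if P o (a t) = P o (b t) then (1 : ℝ) else 0) := by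
      intro o
      have h2 : ∀ l ∈ (univ : Finset Λ), |(cnt o l a : ℝ) - cnt o l b| ≤ ∑ t ∈ range s,
          |(if P o (a t) = l then (1 : ℝ) else 0) - (if P o (b t) = l then (1 : ℝ) else 0)| := by
        intro l _
        rw [hc, hc, ← sum_sub_distrib]
        exact abs_sum_le_sum_abs _ _
      refine (sum_le_sum h2).trans ?_
      rw [sum_comm]
      apply sum_le_sum
      intro t _
      by_cases he : P o (a t) = P o (b t)
      · simp [he]
      · have h3 : ∀ l ∈ (univ : Finset Λ),
            |(if P o (a t) = l then (1 : ℝ) else 0) - (if P o (b t) = l then (1 : ℝ) else 0)| ≤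
            (if P o (a t) = l then (1 : ℝ) else 0) + (if P o (b t) = l then (1 : ℝ) else 0) := by
          intro l _
          split_ifs <;> norm_num
        refine (sum_le_sum h3).trans ?_
        rw [sum_add_distrib, hone, hone]
        norm_num [he]
    refine (sum_le_sum fun o _ => mul_le_mul_of_nonneg_left (h1 o) (hμ o)).trans ?_
    simp only [mul_sum]
    rw [sum_comm]
    apply sum_le_sum
    intro t _
    have e : ∑ o, μ o * (2 * (1 - if P o (a t) = P o (b t) then (1 : ℝ) else 0)) =
        2 * (∑ o, μ o - ∑ o, μ o * (if P o (a t) = P o (b t) then (1 : ℝ) else 0)) := by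
      rw [← sum_sub_distrib, mul_sum]
      exact sum_congr rfl fun o _ => by ring
    rw [e, hμ1, hP]
    have := Real.add_one_le_exp (-(lam * d (a t) (b t)))
    linarith
  · have h1 : ∀ o, ∑ l, |(cnt o l a : ℝ) - cnt o l b| ≤ 2 := by
      intro o
      have h2 : ∀ l ∈ (univ : Finset Λ), |(cnt o l a : ℝ) - cnt o l b| ≤
          (if P o (b 0) = l then (1 : ℝ) else 0) + (if P o (b s) = l then (1 : ℝ) else 0) := by
        intro l _
        have e1 := sum_range_succ (fun t => if P o (b t) = l then (1 : ℝ) else 0) s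
        have e2 := sum_range_succ' (fun t => if P o (b t) = l then (1 : ℝ) else 0) s
        simp only [hab] at e2
        rw [hc, hc]
        have e3 : (∑ t ∈ range s, if P o (a t) = l then (1 : ℝ) else 0) -
            (∑ t ∈ range s, if P o (b t) = l then (1 : ℝ) else 0) =
            (if P o (b s) = l then (1 : ℝ) else 0) - (if P o (b 0) = l then (1 : ℝ) else 0) := by
          linarith
        rw [e3]
        split_ifs <;> norm_num
      refine (sum_le_sum h2).trans ?_
      rw [sum_add_distrib, hone, hone]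
      norm_num
    refine (sum_le_sum fun o _ => mul_le_mul_of_nonneg_left (h1 o) (hμ o)).trans ?_
    rw [← sum_mul, hμ1]
    norm_num
  · have h1 : ∀ o, 2 * (s : ℝ) - 2 * ∑ t ∈ range s, ∑ t' ∈ range s,
        (if P o (a t) = P o (b t') then (1 : ℝ) else 0) ≤ ∑ l, |(cnt o l a : ℝ) - cnt o l b| := by
      intro o
      have h2 : ∀ l ∈ (univ : Finset Λ), (cnt o l a : ℝ) + cnt o l b -
          2 * (cnt o l a * cnt o l b) ≤ |(cnt o l a : ℝ) - cnt o l b| := by
        intro l _
        generalize cnt o l a = m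
        generalize cnt o l b = n
        rcases Nat.eq_zero_or_pos m with rfl | hm
        · simp
        · have h3 : (1 : ℝ) ≤ m := by exact_mod_cast hm
          have h4 : (0 : ℝ) ≤ n := Nat.cast_nonneg n
          have := le_abs_self ((m : ℝ) - n)
          nlinarith
      refine le_trans (le_of_eq ?_) (sum_le_sum h2)
      have e1 : ∀ a : ℕ → X, ∑ l, (cnt o l a : ℝ) = s := by
        intro a
        simp only [hc]
        rw [sum_comm]
        simp only [hone]
        simp
      have e2 : ∑ l, (cnt o l a : ℝ) * cnt o l b = ∑ t ∈ range s, ∑ t' ∈ range s,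
          (if P o (a t) = P o (b t') then (1 : ℝ) else 0) := by
        simp only [hc, sum_mul_sum]
        rw [sum_comm]
        apply sum_congr rfl
        intro t _
        rw [sum_comm]
        apply sum_congr rfl
        intro t' _
        simp [eq_comm]
      rw [sum_sub_distrib, sum_add_distrib, ← mul_sum, e1, e1, e2]
      ring
    refine le_trans ?_ (sum_le_sum fun o _ => mul_le_mul_of_nonneg_left (h1 o) (hμ o))
    have e : ∑ o, μ o * (2 * (s : ℝ) - 2 * ∑ t ∈ range s, ∑ t' ∈ range s,
        (if P o (a t) = P o (b t') then (1 : ℝ) else 0)) =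
        2 * s - 2 * ∑ t ∈ range s, ∑ t' ∈ range s, Real.exp (-(lam * d (a t) (b t'))) := by
      simp only [mul_sub, sum_sub_distrib, ← hP]
      rw [← sum_mul, hμ1, one_mul]
      congr 1
      simp only [mul_sum]
      rw [sum_comm]
      apply sum_congr rfl
      intro t _
      rw [sum_comm]
      apply sum_congr rfl
      intro t' _
      exact sum_congr rfl fun o _ => by ring
    rw [e]
    have h3 : ∑ t ∈ range s, ∑ t' ∈ range s, Real.exp (-(lam * d (a t) (b t'))) ≤
        ∑ t ∈ range s, ∑ t' ∈ range s, Real.exp (-(lam * τ)) := by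
      apply sum_le_sum; intro t ht
      apply sum_le_sum; intro t' ht'
      apply Real.exp_le_exp.2
      have := mul_le_mul_of_nonneg_left (hτ t (mem_range.1 ht) t' (mem_range.1 ht')) hl
      linarith
    simp only [sum_const, card_range, nsmul_eq_mul] at h3
    nlinarith

lemma IsCut.embed {d : X → X → ℝ} (hd : IsCut d) :
    ∃ f : X → lp (fun _ : ℕ => ℝ) 1, ∀ x y, ‖f x - f y‖ = d x y := by
  classical
  obtain ⟨Ω, _, w, h, hw, e⟩ := hd
  obtain ⟨i, hi⟩ := Countable.exists_injective_nat Ω
  refine ⟨fun x => ∑ o, lp.single 1 (i o) (if h o x then w o else 0), fun x y => ?_⟩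
  rw [← sum_sub_distrib]
  simp only [← lp.single_sub]
  set g : ℕ → ℝ := Function.extend i
    (fun o => (if h o x then w o else 0) - (if h o y then w o else 0)) 0 with hg
  have hgi : ∀ o, g (i o) = (if h o x then w o else 0) - (if h o y then w o else 0) :=
    fun o => hi.extend_apply _ _ o
  have h1 := lp.norm_sum_single (E := fun _ : ℕ => ℝ) (p := 1) (by norm_num) g (univ.image i)
  rw [sum_image (fun a _ b _ hab => hi hab), sum_image (fun a _ b _ hab => hi hab)] at h1
  simp only [hgi, ENNReal.toReal_one, Real.rpow_one] at h1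
  rw [h1, e]
  apply sum_congr rfl
  intro o _
  have := hw o
  cases h o x <;> cases h o y <;> simp [abs_of_nonneg this]

end Vale.Agent.P238
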