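import Mathlib

namespace Vale.Agent.P238

/-- `y` arises from `x` by one edit operation: insertion, deletion or substitution of one symbol. -/
def EditStep (x y : List Bool) : Prop :=
  ∃ (u v : List Bool) (a b : Bool),
    (x = u ++ v ∧ y = u ++ a :: v) ∨ (x = u ++ a :: v ∧ y = u ++ v) ∨
      (x = u ++ a :: v ∧ y = u ++ b :: v)

/-- The edit distance: the least number of edit operations transforming `x` into `y`. -/
noncomputable def ED (x y : List Bool) : ℕ :=
  sInf {k : ℕ | ∃ p : ℕ → List Bool, p 0 = x ∧ p k = y ∧ ∀ i < k, EditStep (p i) (p (i + 1))}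

/-- The distortion of a map from binary words of length `n` into `l_1`. -/
noncomputable def distortion (n : ℕ) (f : (Fin n → Bool) → lp (fun _ : ℕ => ℝ) 1) : ℝ :=
  (⨆ p : {p : (Fin n → Bool) × (Fin n → Bool) // p.1 ≠ p.2},
      ‖f p.1.1 - f p.1.2‖ / (ED (List.ofFn p.1.1) (List.ofFn p.1.2) : ℝ)) *
    (⨆ p : {p : (Fin n → Bool) × (Fin n → Bool) // p.1 ≠ p.2},
      (ED (List.ofFn p.1.1) (List.ofFn p.1.2) : ℝ) / ‖f p.1.1 - f p.1.2‖)

/-- The least distortion `c_1({0,1}^n, ED)` of an injective map into `l_1`. -/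
noncomputable def c1 (n : ℕ) : ℝ :=
  sInf {D : ℝ | ∃ f : (Fin n → Bool) → lp (fun _ : ℕ => ℝ) 1,
    Function.Injective f ∧ D = distortion n f}

end Vale.Agent.P238
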