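import Mathlib
import Vale.Agent.P238.Defs

/-!
Edit distance versus common sublists.
-/

namespace Vale.Agent.P238

open List

/-- There is a chain of `k` edit steps from `x` to `y`. -/
def Path (k : ℕ) (x y : List Bool) : Prop :=
  ∃ p : ℕ → List Bool, p 0 = x ∧ p k = y ∧ ∀ i < k, EditStep (p i) (p (i + 1))

lemma path_zero (x : List Bool) : Path 0 x x := ⟨fun _ => x, rfl, rfl, fun i hi => by omega⟩

lemma path_zero_eq {x y : List Bool} (h : Path 0 x y) : x = y := by
  obtain ⟨p, h0, h1, -⟩ := h
  rw [← h0, ← h1]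

lemma path_succ {k : ℕ} {x y z : List Bool} (h : Path k x y) (hs : EditStep y z) :
    Path (k + 1) x z := by
  obtain ⟨p, h0, h1, h2⟩ := h
  refine ⟨fun i => if i ≤ k then p i else z, by simp [h0], by simp, fun i hi => ?_⟩
  by_cases h3 : i < k
  · have e1 : i ≤ k := h3.le
    have e2 : i + 1 ≤ k := h3
    simp only [e1, e2, if_true]
    exact h2 i h3
  · have e : i = k := by omega
    subst e
    simp only [le_refl, if_true, Nat.not_succ_le_self, if_false, h1]
    exact hs

lemma path_succ_inv {k : ℕ} {x z : List Bool} (h : Path (k + 1) x z) :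
    ∃ y, Path k x y ∧ EditStep y z := by
  obtain ⟨p, h0, h1, h2⟩ := h
  exact ⟨p k, ⟨p, h0, rfl, fun i hi => h2 i (by omega)⟩, h1 ▸ h2 k (by omega)⟩

lemma path_trans {k : ℕ} {x y : List Bool} (h : Path k x y) :
    ∀ (l : ℕ) (z : List Bool), Path l y z → Path (k + l) x z := by
  intro l
  induction l with
  | zero => intro z hz; rw [← path_zero_eq hz]; exact h
  | succ l ih =>
    intro z hz
    obtain ⟨w, h1, h2⟩ := path_succ_inv hz
    exact path_succ (ih w h1) h2

lemma step_cons (a : Bool) {x y : List Bool} (h : EditStep x y) : EditStep (a :: x) (a :: y) := by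
  obtain ⟨u, v, b, c, h⟩ := h
  refine ⟨a :: u, v, b, c, ?_⟩
  rcases h with ⟨h1, h2⟩ | ⟨h1, h2⟩ | ⟨h1, h2⟩
  · left; simp [h1, h2]
  · right; left; simp [h1, h2]
  · right; right; simp [h1, h2]

lemma step_symm {x y : List Bool} (h : EditStep x y) : EditStep y x := by
  obtain ⟨u, v, b, c, h⟩ := h
  rcases h with ⟨h1, h2⟩ | ⟨h1, h2⟩ | ⟨h1, h2⟩
  · exact ⟨u, v, b, c, Or.inr (Or.inl ⟨h2, h1⟩)⟩
  · exact ⟨u, v, b, c, Or.inl ⟨h2, h1⟩⟩
  · exact ⟨u, v, c, b, Or.inr (Or.inr ⟨h2, h1⟩)⟩

lemma path_cons (a : Bool) {k : ℕ} {x y : List Bool} (h : Path k x y) :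
    Path k (a :: x) (a :: y) := by
  obtain ⟨p, h0, h1, h2⟩ := h
  exact ⟨fun i => a :: p i, by simp [h0], by simp [h1], fun i hi => step_cons a (h2 i hi)⟩

lemma path_one {x y : List Bool} (h : EditStep x y) : Path 1 x y := path_succ (path_zero x) h

lemma path_symm : ∀ (k : ℕ) {x y : List Bool}, Path k x y → Path k y x := by
  intro k
  induction k with
  | zero => intro x y h; rw [path_zero_eq h]; exact path_zero _
  | succ k ih =>
    intro x z h
    obtain ⟨y, h1, h2⟩ := path_succ_inv h
    have := path_trans (path_one (step_symm h2)) k x (ih h1)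
    rwa [Nat.add_comm] at this

lemma path_of_sublist {c x : List Bool} (h : c <+ x) : Path (x.length - c.length) c x := by
  induction h with
  | slnil => exact path_zero _
  | cons a h ih =>
    rename_i l1 l2
    have hl := h.length_le
    have e : (a :: l2).length - l1.length = l2.length - l1.length + 1 := by
      simp only [length_cons]; omega
    rw [e]
    exact path_succ ih ⟨[], l2, a, a, Or.inl ⟨rfl, rfl⟩⟩
  | cons_cons a h ih =>
    rename_i l1 l2
    have e : (a :: l2).length - (a :: l1).length = l2.length - l1.length := by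
      simp only [length_cons]; omega
    rw [e]
    exact path_cons a ih

lemma ED_le_of_path {k : ℕ} {x y : List Bool} (h : Path k x y) : ED x y ≤ k :=
  Nat.sInf_le h

lemma ED_le {c x y : List Bool} (hx : c <+ x) (hy : c <+ y) :
    ED x y + 2 * c.length ≤ x.length + y.length := by
  have h1 := path_symm _ (path_of_sublist hx)
  have h2 := ED_le_of_path (path_trans h1 _ _ (path_of_sublist hy))
  have := hx.length_le
  have := hy.length_le
  omega

lemma path_ED (x y : List Bool) : Path (ED x y) x y := by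
  have h1 := path_symm _ (path_of_sublist (nil_sublist x))
  have h2 := path_trans h1 _ _ (path_of_sublist (nil_sublist y))
  exact Nat.sInf_mem (s := {k | Path k x y}) ⟨_, h2⟩

lemma sublist_del {α : Type*} {c u v : List α} {a : α} (h : c <+ u ++ a :: v) :
    ∃ c', c' <+ c ∧ c' <+ u ++ v ∧ c.length ≤ c'.length + 1 := by
  obtain ⟨c1, c2, rfl, h1, h2⟩ := sublist_append_iff.1 h
  refine ⟨c1 ++ c2.tail, Sublist.append_left (tail_sublist c2) c1, Sublist.append h1 h2.tail, ?_⟩
  simp only [length_append, length_tail]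
  omega

lemma common_of_path : ∀ (k : ℕ) (x y : List Bool), Path k x y →
    ∃ c, c <+ x ∧ c <+ y ∧ x.length + y.length ≤ 2 * c.length + 2 * k := by
  intro k
  induction k with
  | zero =>
    intro x y h
    rw [← path_zero_eq h]
    exact ⟨x, Sublist.refl _, Sublist.refl _, by omega⟩
  | succ k ih =>
    intro x z h
    obtain ⟨y, h1, u, v, a, b, h2⟩ := path_succ_inv h
    obtain ⟨c, hc1, hc2, hc3⟩ := ih x y h1
    have hins : ∀ b : Bool, u ++ v <+ u ++ b :: v := fun b =>
      Sublist.append_left (sublist_cons_self b v) u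
    rcases h2 with ⟨rfl, rfl⟩ | ⟨rfl, rfl⟩ | ⟨rfl, rfl⟩
    · refine ⟨c, hc1, hc2.trans (hins a), ?_⟩
      simp only [length_append, length_cons] at hc3 ⊢
      omega
    · obtain ⟨c', e1, e2, e3⟩ := sublist_del hc2
      refine ⟨c', e1.trans hc1, e2, ?_⟩
      simp only [length_append, length_cons] at hc3 ⊢
      omega
    · obtain ⟨c', e1, e2, e3⟩ := sublist_del hc2
      refine ⟨c', e1.trans hc1, e2.trans (hins b), ?_⟩
      simp only [length_append, length_cons] at hc3 ⊢
      omega

lemma common_of_ED (x y : List Bool) :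
    ∃ c, c <+ x ∧ c <+ y ∧ x.length + y.length ≤ 2 * c.length + 2 * ED x y :=
  common_of_path _ x y (path_ED x y)

lemma ED_self (x : List Bool) : ED x x = 0 :=
  Nat.eq_zero_of_le_zero (ED_le_of_path (path_zero x))

lemma ED_pos {x y : List Bool} (h : x ≠ y) : 0 < ED x y := by
  rcases Nat.eq_zero_or_pos (ED x y) with h0 | h0
  · have := path_ED x y
    rw [h0] at this
    exact absurd (path_zero_eq this) h
  · exact h0

end Vale.Agent.P238
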