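import Mathlib
import Vale.Agent.P238.Match

/-!
Gadgets: a finite abelian group of words with cheap moves generating an expensive direction.
-/

namespace Vale.Agent.P238

open Finset

lemma root_avg {ζ : ℂ} {N J : ℕ} (hN : 0 < N) (h1 : ζ ≠ 1) (hζ : ζ ^ N = 1) (hJ : 2 * N ≤ J) :
    (J : ℝ) ≤ ∑ j ∈ range J, ‖ζ ^ j - 1‖ ^ 2 := by
  have hn : ‖ζ‖ = 1 := Complex.norm_eq_one_of_pow_eq_one hζ hN.ne'
  have hw : ∀ j : ℕ, ‖ζ ^ j - 1‖ ^ 2 = 2 - 2 * (ζ ^ j).re := by
    intro j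
    have e : ‖ζ ^ j‖ ^ 2 = 1 := by rw [norm_pow, hn]; simp
    rw [Complex.sq_norm, Complex.normSq_apply] at e ⊢
    simp only [Complex.sub_re, Complex.sub_im, Complex.one_re, Complex.one_im]
    nlinarith
  have hs : ∑ j ∈ range J, ζ ^ j = ∑ j ∈ range (J % N), ζ ^ j := by
    rw [geom_sum_eq h1, geom_sum_eq h1]
    congr 2
    conv_lhs => rw [← Nat.div_add_mod J N, pow_add, pow_mul, hζ, one_pow, one_mul]
  have hb : (∑ j ∈ range J, ζ ^ j).re ≤ N := by
    rw [hs]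
    refine (Complex.re_le_norm _).trans ((norm_sum_le _ _).trans ?_)
    simp only [norm_pow, hn, one_pow, sum_const, card_range, nsmul_eq_mul, mul_one]
    exact_mod_cast (Nat.mod_lt J hN).le
  simp only [hw]
  rw [sum_sub_distrib, ← mul_sum, ← Complex.re_sum]
  simp only [sum_const, card_range, nsmul_eq_mul]
  have : (2 : ℝ) * N ≤ J := by exact_mod_cast hJ
  linarith

lemma char_avg {G : Type} [AddCommGroup G] (χ : AddChar G ℂ) (v : G) {N J : ℕ} (hN : 0 < N)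
    (h1 : χ v ≠ 1) (hζ : χ v ^ N = 1) (hJ : 2 * N ≤ J) :
    1 ≤ ∑ j : Fin J, (1 / (J : ℝ)) * ‖χ ((j : ℕ) • v) - 1‖ ^ 2 := by
  have h := root_avg hN h1 hζ hJ
  have hJ0 : (0 : ℝ) < J := by exact_mod_cast (by omega : 0 < J)
  rw [← mul_sum, Fin.sum_univ_eq_sum_range (fun j => ‖χ (j • v) - 1‖ ^ 2) J]
  simp only [AddChar.map_nsmul_eq_pow]
  rw [one_div, ← div_eq_inv_mul, le_div_iff₀ hJ0]
  linarith

/-- A gadget. -/
structure Gad (L A M : ℕ) (φ c : ℝ) : Type 1 where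
  G : Type
  grp : AddCommGroup G
  fin : Fintype G
  g : G
  W : G → ℕ → ℕ
  Mv : Type
  finM : Fintype Mv
  wt : Mv → ℝ
  z : Mv → G
  cst : Mv → ℕ
  W_lt : ∀ x p, p < L → W x p < A
  wt_nonneg : ∀ m, 0 ≤ wt m
  ord : M • g = 0
  poinc : ∀ χ : AddChar G ℂ, χ g ≠ 1 → 1 ≤ ∑ m, wt m * ‖χ (z m) - 1‖ ^ 2
  close : ∀ x m, Close (W x) (W (x + z m)) L (cst m)
  cost : ∑ m, wt m * cst m ≤ c * L
  far : ∀ x (j : ℤ), ¬ (M : ℤ) ∣ j → ∀ S, IsMatch (W x) (W (x + j • g)) L S →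
    (S.card : ℝ) ≤ (1 - φ) * L

attribute [instance] Gad.grp Gad.fin Gad.finM

/-- Weaken the cost constant. -/
def Gad.weaken {L A M : ℕ} {φ c c' : ℝ} (D : Gad L A M φ c) (h : c ≤ c') : Gad L A M φ c' :=
  { D with cost := D.cost.trans (mul_le_mul_of_nonneg_right h (Nat.cast_nonneg L)) }

/-- The one-symbol gadget. -/
noncomputable def leaf (A M : ℕ) [NeZero M] (hA : M ≤ A) : Gad 1 A M 1 1 where
  G := ZMod M
  grp := inferInstance
  fin := inferInstance
  g := 1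
  W := fun x _ => x.val
  Mv := Fin (2 * M)
  finM := inferInstance
  wt := fun _ => 1 / ((2 * M : ℕ) : ℝ)
  z := fun j => (j : ℕ) • (1 : ZMod M)
  cst := fun _ => 1
  W_lt := fun x _ _ => (ZMod.val_lt x).trans_le hA
  wt_nonneg := fun _ => by positivity
  ord := by simp
  poinc := fun χ hχ => char_avg χ 1 (Nat.pos_of_ne_zero (NeZero.ne M)) hχ
    (by rw [← AddChar.map_nsmul_eq_pow]; simp) le_rfl
  close := fun x m => close_triv _ _ 1
  cost := by
    have : (0 : ℝ) < M := by exact_mod_cast Nat.pos_of_ne_zero (NeZero.ne M)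
    simp only [sum_const, card_univ, Fintype.card_fin, nsmul_eq_mul]
    push_cast
    field_simp
    exact le_rfl
  far := fun x j hj S hS => by
    have : S = ∅ := by
      rw [eq_empty_iff_forall_notMem]
      intro a ha
      have h := (hS.1 a ha).2.2
      have h2 := ZMod.val_injective M h
      apply hj
      rw [← ZMod.intCast_zmod_eq_zero_iff_dvd]
      simpa using h2.symm
    simp [this]

end Vale.Agent.P238
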