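import Mathlib
import Vale.Agent.P138.Main
import Vale.Agent.P238.Edit
import Vale.Agent.P238.Code
import Vale.Agent.P238.Gadget

/-!
The Poincare inequality of a gadget and the resulting distortion bound.
-/

namespace Vale.Agent.P238

open Finset

section fourier

variable {G : Type} [AddCommGroup G] [Fintype G]

lemma parseval (d : AddChar G ℂ → ℂ) :
    ∑ x, ‖∑ χ, d χ * χ x‖ ^ 2 = Fintype.card G * ∑ χ, ‖d χ‖ ^ 2 := by
  classical
  apply Complex.ofReal_injective
  push_cast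
  simp only [← Complex.mul_conj', map_sum, map_mul, sum_mul_sum]
  rw [sum_comm, mul_sum]
  apply sum_congr rfl
  intro χ _
  rw [sum_comm]
  have h : ∀ ψ : AddChar G ℂ, ∑ x, d χ * χ x * ((starRingEnd ℂ) (d ψ) * (starRingEnd ℂ) (ψ x)) =
      if χ = ψ then (Fintype.card G : ℂ) * (d χ * (starRingEnd ℂ) (d χ)) else 0 := by
    intro ψ
    have e : ∀ x, d χ * χ x * ((starRingEnd ℂ) (d ψ) * (starRingEnd ℂ) (ψ x)) =
        d χ * (starRingEnd ℂ) (d ψ) * (χ - ψ) x := by
      intro x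
      rw [AddChar.sub_apply, AddChar.map_neg_eq_conj]
      ring
    simp only [e]
    rw [← mul_sum, AddChar.sum_eq_ite]
    by_cases hc : χ = ψ
    · subst hc
      simp [mul_comm]
    · simp [hc, sub_eq_zero]
  simp only [h]
  simp

lemma parseval_shift (h : G → ℝ) : ∃ a : AddChar G ℂ → ℝ, (∀ χ, 0 ≤ a χ) ∧
    ∀ w, ∑ x, (h (x + w) - h x) ^ 2 = ∑ χ, a χ * ‖χ w - 1‖ ^ 2 := by
  set cf := (AddChar.complexBasis G).repr (fun x => (h x : ℂ)) with hcf
  have hx : ∀ x, (h x : ℂ) = ∑ χ, cf χ * χ x := by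
    intro x
    have := congrFun ((AddChar.complexBasis G).sum_repr (fun x => (h x : ℂ))) x
    rw [← this, Finset.sum_apply]
    simp [hcf]
  refine ⟨fun χ => Fintype.card G * ‖cf χ‖ ^ 2, fun χ => by positivity, fun w => ?_⟩
  have e : ∀ x, (h (x + w) - h x) ^ 2 = ‖∑ χ, (cf χ * (χ w - 1)) * χ x‖ ^ 2 := by
    intro x
    have : ∑ χ, (cf χ * (χ w - 1)) * χ x = ((h (x + w) - h x : ℝ) : ℂ) := by
      push_cast
      rw [hx, hx, ← sum_sub_distrib]
      apply sum_congr rfl
      intro χ _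
      rw [AddChar.map_add_eq_mul]
      ring
    rw [this, Complex.norm_real, Real.norm_eq_abs, sq_abs]
  simp only [e]
  rw [parseval, mul_sum]
  apply sum_congr rfl
  intro χ _
  rw [norm_mul]
  ring

end fourier

variable {L A M : ℕ} {φ c : ℝ} (D : Gad L A M φ c)

lemma poincare_real (h : D.G → ℝ) :
    ∑ x, (h (x + D.g) - h x) ^ 2 ≤ 4 * ∑ m, D.wt m * ∑ x, (h (x + D.z m) - h x) ^ 2 := by
  obtain ⟨a, ha, hw⟩ := parseval_shift h
  simp only [hw, mul_sum]
  rw [sum_comm]
  apply sum_le_sum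
  intro χ _
  have e : ∑ m, 4 * (D.wt m * (a χ * ‖χ (D.z m) - 1‖ ^ 2)) =
      a χ * (4 * ∑ m, D.wt m * ‖χ (D.z m) - 1‖ ^ 2) := by
    simp only [mul_sum]
    exact sum_congr rfl fun m _ => by ring
  rw [e]
  apply mul_le_mul_of_nonneg_left _ (ha χ)
  by_cases hc : χ D.g = 1
  · rw [hc]
    have : 0 ≤ ∑ m, D.wt m * ‖χ (D.z m) - 1‖ ^ 2 :=
      sum_nonneg fun m _ => mul_nonneg (D.wt_nonneg m) (by positivity)
    simpa using this
  · have h1 := D.poinc χ hc
    have h2 : ‖χ D.g - 1‖ ≤ 2 := by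
      refine (norm_sub_le _ _).trans ?_
      rw [AddChar.norm_apply]
      norm_num
    have h3 : ‖χ D.g - 1‖ ^ 2 ≤ 2 ^ 2 := pow_le_pow_left₀ (norm_nonneg _) h2 2
    linarith

lemma poincare_l1 (F : D.G → lp (fun _ : ℕ => ℝ) 1) :
    ∑ x, ‖F (x + D.g) - F x‖ ≤ 4 * ∑ m, D.wt m * ∑ x, ‖F (x + D.z m) - F x‖ := by
  classical
  obtain ⟨v, -, hv⟩ := Vale.Agent.P138.cut_l1 F
  simp only [hv]
  have e : ∀ w : D.G, ∑ x, ∑ S, ‖v S‖ * (P138.ind (x + w) S - P138.ind x S) ^ 2 =
      ∑ S, ‖v S‖ * ∑ x, (P138.ind (x + w) S - P138.ind x S) ^ 2 := by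
    intro w
    rw [sum_comm]
    simp only [mul_sum]
  simp only [e]
  have e2 : 4 * ∑ m, D.wt m * ∑ S, ‖v S‖ * ∑ x, (P138.ind (x + D.z m) S - P138.ind x S) ^ 2 =
      ∑ S, ‖v S‖ * (4 * ∑ m, D.wt m * ∑ x, (P138.ind (x + D.z m) S - P138.ind x S) ^ 2) := by
    generalize hB : (fun m S => ∑ x, (P138.ind (x + D.z m) S - P138.ind x S) ^ 2) = B
    have hB' : ∀ m S, ∑ x, (P138.ind (x + D.z m) S - P138.ind x S) ^ 2 = B m S := by
      intro m S; rw [← hB]
    simp only [hB', mul_sum]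
    rw [sum_comm]
    apply sum_congr rfl; intro S _
    apply sum_congr rfl; intro m _
    ring
  rw [e2]
  apply sum_le_sum
  intro S _
  exact mul_le_mul_of_nonneg_left (poincare_real D (fun x => P138.ind x S)) (norm_nonneg _)

/-- Pad a word with `d` zeros in front. -/
def padW (d : ℕ) (u : ℕ → Bool) (i : ℕ) : Bool := if i < d then false else u (i - d)

lemma ofFn_padW {d N n : ℕ} (hn : n = d + N) (u : ℕ → Bool) :
    List.ofFn (fun i : Fin n => padW d u i) =
      List.replicate d false ++ (List.range N).map u := by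
  subst hn
  apply List.ext_getElem
  · simp
  · intro i h1 h2
    simp only [List.getElem_ofFn, List.getElem_append, List.length_replicate,
      List.getElem_replicate, List.getElem_map, List.getElem_range, padW]
    split_ifs <;> rfl

lemma ED_pad_le {d N n k : ℕ} (hn : n = d + N) {u v : ℕ → Bool} (h : Close u v N k) :
    ED (List.ofFn (fun i : Fin n => padW d u i)) (List.ofFn (fun i : Fin n => padW d v i)) ≤
      2 * k := by
  obtain ⟨l, h1, h2, h3⟩ := h
  rw [ofFn_padW hn, ofFn_padW hn]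
  have := ED_le (h1.append_left (List.replicate d false)) (h2.append_left (List.replicate d false))
  simp only [List.length_append, List.length_replicate, List.length_map, List.length_range] at this
  omega

lemma ED_pad_ge {d N n : ℕ} (hn : n = d + N) (u v : ℕ → Bool) : ∃ S, IsMatch u v N S ∧
    N ≤ S.card +
      ED (List.ofFn (fun i : Fin n => padW d u i)) (List.ofFn (fun i : Fin n => padW d v i)) := by
  rw [ofFn_padW hn, ofFn_padW hn]
  obtain ⟨l, h1, h2, h3⟩ := common_of_ED (List.replicate d false ++ (List.range N).map u)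
    (List.replicate d false ++ (List.range N).map v)
  have g1 := h1.drop d
  have g2 := h2.drop d
  rw [List.drop_left' (by simp)] at g1 g2
  obtain ⟨S, hS, hc⟩ := match_of_sublist g1 g2
  refine ⟨S, hS, ?_⟩
  simp only [List.length_append, List.length_replicate, List.length_map, List.length_range,
    List.length_drop] at h3 hc
  omega

lemma distortion_spec {n : ℕ} {f : (Fin n → Bool) → lp (fun _ : ℕ => ℝ) 1}
    (hf : Function.Injective f) : ∃ a b : ℝ, 0 ≤ a ∧ 0 ≤ b ∧ distortion n f = a * b ∧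
      (∀ x y, ‖f x - f y‖ ≤ a * ED (List.ofFn x) (List.ofFn y)) ∧
      (∀ x y, (ED (List.ofFn x) (List.ofFn y) : ℝ) ≤ b * ‖f x - f y‖) := by
  refine ⟨_, _, Real.iSup_nonneg fun p => by positivity, Real.iSup_nonneg fun p => by positivity,
    rfl, fun x y => ?_, fun x y => ?_⟩
  · by_cases h : x = y
    · subst h; simp [ED_self]
    · have h1 : (0 : ℝ) < ED (List.ofFn x) (List.ofFn y) := by
        exact_mod_cast ED_pos fun e => h (List.ofFn_injective e)
      rw [← div_le_iff₀ h1]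
      exact le_ciSup (f := fun p : {p : (Fin n → Bool) × (Fin n → Bool) // p.1 ≠ p.2} =>
        ‖f p.1.1 - f p.1.2‖ / (ED (List.ofFn p.1.1) (List.ofFn p.1.2) : ℝ))
        (Finite.bddAbove_range _) ⟨(x, y), h⟩
  · by_cases h : x = y
    · subst h; simp [ED_self]
    · have h1 : (0 : ℝ) < ‖f x - f y‖ := norm_pos_iff.2 (sub_ne_zero.2 fun e => h (hf e))
      rw [← div_le_iff₀ h1]
      exact le_ciSup (f := fun p : {p : (Fin n → Bool) × (Fin n → Bool) // p.1 ≠ p.2} =>
        (ED (List.ofFn p.1.1) (List.ofFn p.1.2) : ℝ) / ‖f p.1.1 - f p.1.2‖)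
        (Finite.bddAbove_range _) ⟨(x, y), h⟩

lemma exists_inj (n : ℕ) :
    ∃ f : (Fin n → Bool) → lp (fun _ : ℕ => ℝ) 1, Function.Injective f := by
  obtain ⟨e, he⟩ := Countable.exists_injective_nat (Fin n → Bool)
  refine ⟨fun x => lp.single 1 0 (e x : ℝ), fun x y h => he ?_⟩
  have := congrArg (fun u : lp (fun _ : ℕ => ℝ) 1 => u 0) h
  simpa using this

include D in
theorem gad_lower (hM : 2 ≤ M) {m n : ℕ} (hA : A ≤ 2 ^ m) (hn : L * (2 * m + 3) ≤ n) (hL : 0 < L)
    (hc : 0 < c) : φ / (16 * c * (2 * m + 3)) ≤ c1 n := by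
  obtain ⟨f0, hf0⟩ := exists_inj n
  refine le_csInf ⟨_, f0, hf0, rfl⟩ ?_
  rintro _ ⟨f, hf, rfl⟩
  obtain ⟨a, b, ha, hb, hab, h1, h2⟩ := distortion_spec hf
  rw [hab]
  obtain ⟨d, hd⟩ : ∃ d, n = d + L * (2 * m + 3) := ⟨n - L * (2 * m + 3), by omega⟩
  set U : D.G → Fin n → Bool := fun x i => padW d (enc code (2 * m + 3) (D.W x)) i with hU
  have hK : (0 : ℝ) < 2 * m + 3 := by positivity
  have hL' : (0 : ℝ) < L := by exact_mod_cast hL
  have far : ∀ x, φ * L / 2 ≤ b * ‖f (U (x + D.g)) - f (U x)‖ := by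
    intro x
    obtain ⟨S, hS, hc⟩ := ED_pad_ge hd (enc code (2 * m + 3) (D.W x))
      (enc code (2 * m + 3) (D.W (x + D.g)))
    obtain ⟨T, hT, hc2⟩ := code_far (fun p hp => (D.W_lt x p hp).trans_le hA)
      (fun p hp => (D.W_lt (x + D.g) p hp).trans_le hA) hS
    have h3 := D.far x 1 (by
      intro h
      have := Int.le_of_dvd (by norm_num) h
      omega) T (by rwa [one_zsmul])
    have h4 := h2 (U x) (U (x + D.g))
    rw [norm_sub_rev] at h4
    have h5 : (L : ℝ) * (2 * m + 3) ≤ S.card + ED (List.ofFn (U x)) (List.ofFn (U (x + D.g))) := by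
      exact_mod_cast hc
    linarith
  have close : ∀ mv x, ‖f (U (x + D.z mv)) - f (U x)‖ ≤ a * (2 * (2 * m + 3) * D.cst mv) := by
    intro mv x
    have h3 := ED_pad_le hd ((D.close x mv).enc code (K := 2 * m + 3) (by omega))
    have h4 := h1 (U x) (U (x + D.z mv))
    rw [norm_sub_rev] at h4
    refine h4.trans (mul_le_mul_of_nonneg_left ?_ ha)
    have h5 : (ED (List.ofFn (U x)) (List.ofFn (U (x + D.z mv))) : ℝ) ≤
        2 * (D.cst mv * (2 * m + 3)) := by exact_mod_cast h3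
    linarith
  have hP := poincare_l1 D (fun x => f (U x))
  have hG : (0 : ℝ) < Fintype.card D.G := by exact_mod_cast Fintype.card_pos
  have s1 : Fintype.card D.G * (φ * L / 2) ≤ b * ∑ x, ‖f (U (x + D.g)) - f (U x)‖ := by
    have := sum_le_sum (s := univ) fun x _ => far x
    rw [← mul_sum] at this
    simpa using this
  have s2 : ∑ mv, D.wt mv * ∑ x, ‖f (U (x + D.z mv)) - f (U x)‖ ≤
      Fintype.card D.G * (a * (2 * (2 * m + 3))) * ∑ mv, D.wt mv * D.cst mv := by
    rw [mul_sum]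
    apply sum_le_sum
    intro mv _
    have h3 := sum_le_sum (s := univ) fun x _ => close mv x
    simp only [sum_const, card_univ, nsmul_eq_mul] at h3
    have h4 := mul_le_mul_of_nonneg_left h3 (D.wt_nonneg mv)
    linarith
  have s3 : Fintype.card D.G * (a * (2 * (2 * m + 3))) * ∑ mv, D.wt mv * D.cst mv ≤
      Fintype.card D.G * (a * (2 * (2 * m + 3))) * (c * L) :=
    mul_le_mul_of_nonneg_left D.cost (by positivity)
  have s4 : b * ∑ x, ‖f (U (x + D.g)) - f (U x)‖ ≤
      b * (4 * (Fintype.card D.G * (a * (2 * (2 * m + 3))) * (c * L))) :=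
    mul_le_mul_of_nonneg_left (by linarith) hb
  have s5 : (Fintype.card D.G * L) * φ ≤
      (Fintype.card D.G * L) * (a * b * (16 * c * (2 * m + 3))) := by
    linarith
  rw [div_le_iff₀ (by positivity)]
  exact le_of_mul_le_mul_left s5 (by positivity)

end Vale.Agent.P238
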