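import Mathlib
import Vale.Agent.P238.Gadget

/-!
The recursive step: rows of tagged child words, each row advancing every child by its direction.
-/

namespace Vale.Agent.P238

open Finset

lemma decomp {b L : ℕ} (hb : 0 < b) (hL : 0 < L) (n : ℕ) :
    ∃ (i : Fin b) (q : ℕ), q < L ∧ n = n / (b * L) * (b * L) + (i * L + q) := by
  have h1 : n % (b * L) < b * L := Nat.mod_lt _ (Nat.mul_pos hb hL)
  refine ⟨⟨n % (b * L) / L, (Nat.div_lt_iff_lt_mul hL).2 h1⟩, n % (b * L) % L,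
    Nat.mod_lt _ hL, ?_⟩
  have e1 := Nat.div_add_mod n (b * L)
  have e2 := Nat.div_add_mod (n % (b * L)) L
  simp only
  rw [Nat.mul_comm (n / (b * L)), Nat.mul_comm (n % (b * L) / L)]
  omega

lemma pos_lt {b L i q : ℕ} (hi : i < b) (hq : q < L) : i * L + q < b * L := by
  have : (i + 1) * L ≤ b * L := Nat.mul_le_mul_right L hi
  rw [Nat.succ_mul] at this
  omega

lemma pos_div {b L i q : ℕ} (t : ℕ) (hi : i < b) (hq : q < L) :
    (t * (b * L) + (i * L + q)) / (b * L) = t := by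
  have h := pos_lt hi hq
  rw [Nat.mul_comm t, Nat.mul_add_div (by omega), Nat.div_eq_of_lt h]; rfl

lemma match_card_le {α : Type} {u v : ℕ → α} {L : ℕ} {S : Finset (ℕ × ℕ)} (hS : IsMatch u v L S) :
    S.card ≤ L := by
  have h : S.card ≤ (range L).card := by
    apply card_le_card_of_injOn Prod.fst
    · intro a ha
      simpa using (hS.1 a ha).1
    · exact fst_injOn hS.2
  simpa using h

lemma good_card {b M R s : ℕ} (p : Fin b → ℕ) (hp : ∀ i, (p i).Prime)
    (hinj : Function.Injective p) (hco : ∀ i, Nat.Coprime M (p i)) (hs : s ≤ 2 ^ R)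
    {j : ℤ} (hj : ¬ (M : ℤ) ∣ j) {t t' : ℕ} (ht : t < s) (ht' : t' < s) :
    (univ.filter (fun i => ((M * p i : ℕ) : ℤ) ∣ j * (∏ i, p i : ℕ) + t' - t)).card ≤ R := by
  classical
  set Gd := univ.filter (fun i => ((M * p i : ℕ) : ℤ) ∣ j * (∏ i, p i : ℕ) + t' - t) with hGd
  rcases Gd.eq_empty_or_nonempty with h0 | ⟨i0, hi0⟩
  · simp [h0]
  have hdv : ∀ i ∈ Gd, (p i : ℤ) ∣ (t' : ℤ) - t := by
    intro i hi
    have h1 := (mem_filter.1 hi).2
    have h2 : (p i : ℤ) ∣ j * (∏ i, p i : ℕ) + t' - t :=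
      (by push_cast; exact Dvd.intro_left _ rfl : (p i : ℤ) ∣ ((M * p i : ℕ) : ℤ)).trans h1
    have h3 : (p i : ℤ) ∣ j * (∏ i, p i : ℕ) :=
      Dvd.dvd.mul_left (Int.natCast_dvd_natCast.2 (dvd_prod_of_mem p (mem_univ i))) j
    have h4 := dvd_sub h2 h3
    have e : j * (∏ i, p i : ℕ) + t' - t - j * (∏ i, p i : ℕ) = (t' : ℤ) - t := by ring
    rwa [e] at h4
  by_cases hδ : (t' : ℤ) - t = 0
  · exfalso
    have h1 := (mem_filter.1 hi0).2
    have e1 : j * (∏ i, p i : ℕ) + t' - t = j * (∏ i ∈ univ.erase i0, p i : ℕ) * p i0 := by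
      rw [← mul_prod_erase univ p (mem_univ i0)]
      push_cast
      linear_combination hδ
    rw [e1] at h1
    push_cast at h1
    have h2 : (p i0 : ℤ) ≠ 0 := by exact_mod_cast (hp i0).ne_zero
    have h3 := (mul_dvd_mul_iff_right h2).1 h1
    apply hj
    refine IsCoprime.dvd_of_dvd_mul_right ?_ h3
    apply IsCoprime.prod_right
    intro i _
    exact Nat.isCoprime_iff_coprime.2 (hco i)
  · have h1 : (∏ i ∈ Gd, (p i : ℤ)) ∣ (t' : ℤ) - t := by
      apply prod_dvd_of_coprime _ hdv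
      intro i _ i' _ hne
      exact Nat.isCoprime_iff_coprime.2
        ((Nat.coprime_primes (hp i) (hp i')).2 fun h => hne (hinj h))
    have h2 : (∏ i ∈ Gd, (p i : ℤ)) ≤ |(t' : ℤ) - t| :=
      Int.le_of_dvd (abs_pos.2 hδ) ((dvd_abs _ _).2 h1)
    have h3 : (2 : ℤ) ^ Gd.card ≤ ∏ i ∈ Gd, (p i : ℤ) := by
      rw [← prod_const]
      apply prod_le_prod (fun _ _ => by norm_num)
      intro i _
      exact_mod_cast (hp i).two_le
    have h4 : |(t' : ℤ) - t| < 2 ^ R := by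
      have : (s : ℤ) ≤ 2 ^ R := by exact_mod_cast hs
      rw [abs_lt]
      constructor <;> omega
    have h5 : (2 : ℤ) ^ Gd.card < 2 ^ R := by linarith
    exact ((pow_lt_pow_iff_right₀ (by norm_num)).1 h5).le

section step

variable {b L A M : ℕ} {φ c : ℝ} {p : Fin b → ℕ} (ch : ∀ i, Gad L A (M * p i) φ c)

/-- The tagged symbol in block `i` of row `t`. -/
def cell (x : ∀ i, (ch i).G) (i : Fin b) (t q : ℕ) : ℕ :=
  i + b * (ch i).W (x i + t • (ch i).g) q

/-- The word of the composed gadget. -/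
def stepW (x : ∀ i, (ch i).G) (n : ℕ) : ℕ :=
  if h : n % (b * L) / L < b then cell ch x ⟨_, h⟩ (n / (b * L)) (n % L) else 0

lemma stepW_at (x : ∀ i, (ch i).G) (t : ℕ) (i : Fin b) {q : ℕ} (hq : q < L) :
    stepW ch x (t * (b * L) + (i * L + q)) = i + b * (ch i).W (x i + t • (ch i).g) q := by
  have h := pos_lt i.2 hq
  have e1 : (t * (b * L) + (i * L + q)) % (b * L) = i * L + q := by
    rw [Nat.mul_comm t, Nat.mul_add_mod, Nat.mod_eq_of_lt h]
  have e2 : (i * L + q) / L = i := by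
    rw [Nat.mul_comm, Nat.mul_add_div (by omega), Nat.div_eq_of_lt hq]; rfl
  have e3 : (t * (b * L) + (i * L + q)) % L = q := by
    have : t * (b * L) + (i * L + q) = L * (t * b + i) + q := by ring
    rw [this, Nat.mul_add_mod, Nat.mod_eq_of_lt hq]
  have e4 := pos_div t i.2 hq
  have e5 : (t * (b * L) + (i * L + q)) % (b * L) / L < b := by rw [e1, e2]; exact i.2
  have e6 : (⟨_, e5⟩ : Fin b) = i := Fin.ext (by simp only [e1, e2])
  unfold stepW
  rw [dif_pos e5, e6, e3, e4]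
  rfl

lemma stepW_eq {x y : ∀ i, (ch i).G} {t t' : ℕ} {i i' : Fin b} {q q' : ℕ} (hq : q < L)
    (hq' : q' < L)
    (h : stepW ch x (t * (b * L) + (i * L + q)) = stepW ch y (t' * (b * L) + (i' * L + q'))) :
    i = i' := by
  rw [stepW_at ch x t i hq, stepW_at ch y t' i' hq'] at h
  have := congrArg (· % b) h
  simp only [Nat.add_mul_mod_self_left, Nat.mod_eq_of_lt i.2, Nat.mod_eq_of_lt i'.2] at this
  exact Fin.ext this

lemma step_close_shift (hb : 0 < b) (hL : 0 < L) (x : ∀ i, (ch i).G) (j L' : ℕ) :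
    Close (stepW ch x) (stepW ch (x + j • fun i => (ch i).g)) L' (j * (b * L)) := by
  apply close_shift
  intro n _
  obtain ⟨i, q, hq, e⟩ := decomp hb hL n
  have e2 : n + j * (b * L) = (n / (b * L) + j) * (b * L) + (i * L + q) := by
    conv_lhs => rw [e]
    ring
  rw [e2, stepW_at ch x _ i hq]
  conv_lhs => rw [e, stepW_at ch _ _ i hq]
  congr 3
  simp only [Pi.add_apply, Pi.smul_apply, add_nsmul]
  abel

lemma step_close_child (x : ∀ i, (ch i).G) (s : ℕ) (i0 : Fin b) (m : (ch i0).Mv) :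
    Close (stepW ch x) (stepW ch (x + Pi.single i0 ((ch i0).z m))) (s * (b * L))
      (s * (ch i0).cst m) := by
  have key := close_blocks (u := stepW ch x) (v := stepW ch (x + Pi.single i0 ((ch i0).z m)))
    (b * L) (fun _ => (ch i0).cst m) s ?_
  · simpa using key
  intro t _
  have key2 := close_blocks (u := fun n => stepW ch x (t * (b * L) + n))
    (v := fun n => stepW ch (x + Pi.single i0 ((ch i0).z m)) (t * (b * L) + n))
    L (fun i => if i = (i0 : ℕ) then (ch i0).cst m else 0) b ?_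
  · refine key2.mono ?_
    rw [sum_ite_eq']
    split_ifs <;> simp
  intro i hi
  by_cases h : i = (i0 : ℕ)
  · subst h
    simp only [if_true]
    refine (((ch i0).close (x i0 + t • (ch i0).g) m).map (fun σ => (i0 : ℕ) + b * σ)).congr ?_ ?_
    · intro q hq
      exact stepW_at ch x t i0 hq
    · intro q hq
      rw [stepW_at ch _ t i0 hq]
      congr 3
      simp only [Pi.add_apply, Pi.single_eq_same]
      abel
  · simp only [h, if_false]
    apply close_refl
    intro q hq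
    have e1 := stepW_at ch x t ⟨i, hi⟩ hq
    have e2 := stepW_at ch (x + Pi.single i0 ((ch i0).z m)) t ⟨i, hi⟩ hq
    simp only at e1 e2
    rw [e1, e2]
    have hne : (⟨i, hi⟩ : Fin b) ≠ i0 := fun h' => h (congrArg Fin.val h')
    simp [Pi.single_eq_of_ne hne]

lemma step_pure (hb : 0 < b) (hL : 0 < L) {R s : ℕ} (hbR : b = 2 * R) (hφ : 0 ≤ φ)
    (hp : ∀ i, (p i).Prime) (hinj : Function.Injective p) (hco : ∀ i, Nat.Coprime M (p i))
    (hs : s ≤ 2 ^ R) {j : ℤ} (hj : ¬ (M : ℤ) ∣ j) (x : ∀ i, (ch i).G) {S : Finset (ℕ × ℕ)}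
    (hS : IsMatch (stepW ch x) (stepW ch (x + j • (∏ i, p i) • fun i => (ch i).g))
      (s * (b * L)) S) {t t' : ℕ} (ht : t < s) (ht' : t' < s)
    (hpure : ∀ a ∈ S, a.1 / (b * L) = t → a.2 / (b * L) = t') :
    ((S.filter (fun a => a.1 / (b * L) = t)).card : ℝ) + φ * R * L ≤ (b * L : ℕ) := by
  classical
  set S' : Fin b → Finset (ℕ × ℕ) := fun i => (range L ×ˢ range L).filter
    (fun a => (t * (b * L) + (i * L + a.1), t' * (b * L) + (i * L + a.2)) ∈ S) with hS'
  have hm : ∀ i, IsMatch ((ch i).W (x i + t • (ch i).g))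
      ((ch i).W (x i + t • (ch i).g + (j * (∏ i, p i : ℕ) + t' - t) • (ch i).g)) L (S' i) := by
    intro i
    constructor
    · intro a ha
      obtain ⟨h1, h2⟩ := mem_filter.1 ha
      obtain ⟨h3, h4⟩ := mem_product.1 h1
      have h3' := mem_range.1 h3
      have h4' := mem_range.1 h4
      refine ⟨h3', h4', ?_⟩
      have h5 := (hS.1 _ h2).2.2
      simp only at h5
      rw [stepW_at ch _ _ i h3', stepW_at ch _ _ i h4'] at h5
      have h6 := Nat.eq_of_mul_eq_mul_left hb (Nat.add_left_cancel h5)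
      rw [h6]
      congr 1
      simp only [Pi.add_apply, Pi.smul_apply, sub_zsmul, add_zsmul, mul_zsmul, natCast_zsmul]
      abel
    · intro a ha a' ha'
      have := hS.2 _ (mem_filter.1 ha).2 _ (mem_filter.1 ha').2
      simp only at this
      omega
  have hsub : S.filter (fun a => a.1 / (b * L) = t) ⊆ univ.biUnion (fun i => (S' i).image
      (fun a => (t * (b * L) + (i * L + a.1), t' * (b * L) + (i * L + a.2)))) := by
    intro a ha
    obtain ⟨h1, h2⟩ := mem_filter.1 ha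
    have h3 := hpure a h1 h2
    obtain ⟨i, q, hq, e⟩ := decomp hb hL a.1
    obtain ⟨i', q', hq', e'⟩ := decomp hb hL a.2
    rw [h2] at e
    rw [h3] at e'
    have h4 := (hS.1 a h1).2.2
    rw [e, e'] at h4
    have h5 := stepW_eq ch hq hq' h4
    subst h5
    have h6 : a = (t * (b * L) + (i * L + q), t' * (b * L) + (i * L + q')) := Prod.ext e e'
    refine mem_biUnion.2 ⟨i, mem_univ _, mem_image.2 ⟨(q, q'), ?_, h6.symm⟩⟩
    refine mem_filter.2 ⟨mem_product.2 ⟨mem_range.2 hq, mem_range.2 hq'⟩, ?_⟩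
    simp only
    rw [← h6]; exact h1
  have h1 : (S.filter (fun a => a.1 / (b * L) = t)).card ≤ ∑ i, (S' i).card :=
    (card_le_card hsub).trans (card_biUnion_le.trans (sum_le_sum fun i _ => card_image_le))
  have h2 : ((S.filter (fun a => a.1 / (b * L) = t)).card : ℝ) ≤ ∑ i, ((S' i).card : ℝ) := by
    exact_mod_cast h1
  have hg := good_card p hp hinj hco hs hj ht ht'
  set Gd := univ.filter (fun i => ((M * p i : ℕ) : ℤ) ∣ j * (∏ i, p i : ℕ) + t' - t) with hGd
  have h3 : ∀ i ∈ (univ : Finset (Fin b)),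
      ((S' i).card : ℝ) ≤ (1 - φ) * L + φ * L * (if i ∈ Gd then 1 else 0) := by
    intro i _
    by_cases hi : i ∈ Gd
    · simp only [hi, if_true]
      have : ((S' i).card : ℝ) ≤ L := by exact_mod_cast match_card_le (hm i)
      linarith
    · simp only [hi, if_false]
      have := (ch i).far _ _ (fun h => hi (mem_filter.2 ⟨mem_univ _, h⟩)) _ (hm i)
      linarith
  have h4 := sum_le_sum h3
  rw [sum_add_distrib, ← mul_sum, ← mul_sum, sum_boole] at h4
  simp only [sum_const, card_univ, Fintype.card_fin, nsmul_eq_mul, filter_mem_eq_inter,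
    univ_inter] at h4
  have h5 : (Gd.card : ℝ) ≤ R := by exact_mod_cast hg
  have h6 : φ * L * Gd.card ≤ φ * L * R := mul_le_mul_of_nonneg_left h5 (by positivity)
  have h7 : (b : ℝ) = 2 * R := by exact_mod_cast hbR
  push_cast
  rw [h7] at h4 ⊢
  nlinarith

lemma step_impure (hb : 0 < b) (hL : 0 < L) {x y : ∀ i, (ch i).G} {L' : ℕ} {S : Finset (ℕ × ℕ)}
    (hS : IsMatch (stepW ch x) (stepW ch y) L' S) {t : ℕ} {a a' : ℕ × ℕ} (ha : a ∈ S)
    (ha' : a' ∈ S) (h1 : a.1 / (b * L) = t) (h2 : a'.1 / (b * L) = t)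
    (h3 : a.2 / (b * L) < a'.2 / (b * L)) :
    ∃ e ∈ S, ∃ e' ∈ S, e.1 / (b * L) = t ∧ e'.1 / (b * L) = t ∧ e.2 + b * L + 1 ≤ e'.2 + L ∧
      ∀ d ∈ S, d.1 / (b * L) = t → d.2 ≤ e.2 ∨ e'.2 ≤ d.2 := by
  classical
  obtain ⟨e, he, hmax⟩ := exists_max_image
    (S.filter (fun d => d.1 / (b * L) = t ∧ d.2 / (b * L) ≤ a.2 / (b * L))) Prod.snd
    ⟨a, mem_filter.2 ⟨ha, h1, le_rfl⟩⟩
  obtain ⟨e', he', hmin⟩ := exists_min_image
    (S.filter (fun d => d.1 / (b * L) = t ∧ a.2 / (b * L) < d.2 / (b * L))) Prod.snd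
    ⟨a', mem_filter.2 ⟨ha', h2, h3⟩⟩
  obtain ⟨e1, e2, e3⟩ := mem_filter.1 he
  obtain ⟨f1, f2, f3⟩ := mem_filter.1 he'
  refine ⟨e, e1, e', f1, e2, f2, ?_, fun d hd hdt => ?_⟩
  · have g1 : e.2 / (b * L) < e'.2 / (b * L) := by omega
    have g2 : e.1 < e'.1 := (hS.2 e e1 e' f1).2 (Nat.lt_of_div_lt_div g1)
    obtain ⟨i1, q1, hq1, u1⟩ := decomp hb hL e.1
    obtain ⟨i2, q2, hq2, u2⟩ := decomp hb hL e.2
    obtain ⟨i3, q3, hq3, u3⟩ := decomp hb hL e'.1
    obtain ⟨i4, q4, hq4, u4⟩ := decomp hb hL e'.2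
    have k1 := (hS.1 e e1).2.2
    have k2 := (hS.1 e' f1).2.2
    rw [u1, u2] at k1
    rw [u3, u4] at k2
    have l1 := stepW_eq ch hq1 hq2 k1
    have l2 := stepW_eq ch hq3 hq4 k2
    subst l1 l2
    rw [e2] at u1
    rw [f2] at u3
    have g3 : (i1 : ℕ) * L ≤ i3 * L := by
      apply Nat.mul_le_mul_right
      by_contra g4
      have : (i3 + 1) * L ≤ i1 * L := Nat.mul_le_mul_right L (by omega)
      rw [Nat.succ_mul] at this
      omega
    have g5 : (e.2 / (b * L) + 1) * (b * L) ≤ e'.2 / (b * L) * (b * L) :=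
      Nat.mul_le_mul_right _ g1
    rw [Nat.succ_mul] at g5
    omega
  · by_cases hc : d.2 / (b * L) ≤ a.2 / (b * L)
    · exact Or.inl (hmax d (mem_filter.2 ⟨hd, hdt, hc⟩))
    · exact Or.inr (hmin d (mem_filter.2 ⟨hd, hdt, by omega⟩))

lemma step_far (hL : 0 < L) {R s : ℕ} (hR : 0 < R) (hbR : b = 2 * R) (hφ : 0 ≤ φ) (hφ1 : φ ≤ 1)
    (hp : ∀ i, (p i).Prime) (hinj : Function.Injective p) (hco : ∀ i, Nat.Coprime M (p i))
    (hs : s ≤ 2 ^ R) {j : ℤ} (hj : ¬ (M : ℤ) ∣ j) (x : ∀ i, (ch i).G) {S : Finset (ℕ × ℕ)}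
    (hS : IsMatch (stepW ch x) (stepW ch (x + j • (∏ i, p i) • fun i => (ch i).g))
      (s * (b * L)) S) : (S.card : ℝ) ≤ (1 - φ / 4) * (s * (b * L) : ℕ) := by
  have hb : 0 < b := by omega
  have hK : 0 < b * L := Nat.mul_pos hb hL
  have h7 : (b : ℝ) = 2 * R := by exact_mod_cast hbR
  have hRL : φ * R * L ≤ R * L := by
    have : (0 : ℝ) ≤ R * L := by positivity
    nlinarith
  have hR1 : (1 : ℝ) ≤ R := by exact_mod_cast hR
  have hL1 : (0 : ℝ) < L := by exact_mod_cast hL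
  have key := gap_bound hS.2 s (b * L) (s * (b * L)) hK (fun a ha => (hS.1 a ha).1)
    (fun a ha => (hS.1 a ha).2.1) (fun _ => φ * R * L) ?_
  · simp only [sum_const, card_range, nsmul_eq_mul] at key
    push_cast at key ⊢
    rw [h7] at key ⊢
    nlinarith
  intro t ht
  have himp : ∀ a ∈ S, ∀ a' ∈ S, a.1 / (b * L) = t → a'.1 / (b * L) = t →
      a.2 / (b * L) < a'.2 / (b * L) →
      ∃ a ∈ S, ∃ a' ∈ S, a.1 / (b * L) = t ∧ a'.1 / (b * L) = t ∧
        (a.2 : ℝ) + φ * R * L + 1 ≤ a'.2 ∧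
        ∀ e ∈ S, e.1 / (b * L) = t → e.2 ≤ a.2 ∨ a'.2 ≤ e.2 := by
    intro a ha a' ha' h1 h2 h3
    obtain ⟨e, he, e', he', g1, g2, g3, g4⟩ := step_impure ch hb hL hS ha ha' h1 h2 h3
    refine ⟨e, he, e', he', g1, g2, ?_, g4⟩
    have g5 : (e.2 : ℝ) + b * L + 1 ≤ e'.2 + L := by exact_mod_cast g3
    rw [h7] at g5
    nlinarith
  by_cases hex : ∃ a ∈ S, a.1 / (b * L) = t
  · obtain ⟨a, ha, hat⟩ := hex
    by_cases hpure : ∀ a' ∈ S, a'.1 / (b * L) = t → a'.2 / (b * L) = a.2 / (b * L)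
    · left
      exact step_pure ch hb hL hbR hφ hp hinj hco hs hj x hS ht
        ((Nat.div_lt_iff_lt_mul hK).2 (hS.1 a ha).2.1) hpure
    · right
      push Not at hpure
      obtain ⟨a', ha', h1, h2⟩ := hpure
      rcases Nat.lt_or_gt_of_ne h2 with h3 | h3
      · exact himp a' ha' a ha h1 hat h3
      · exact himp a ha a' ha' hat h1 h3
  · left
    have : S.filter (fun a => a.1 / (b * L) = t) = ∅ := by
      rw [filter_eq_empty_iff]
      intro a ha h
      exact hex ⟨a, ha, h⟩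
    rw [this]
    push_cast
    rw [h7]
    simp only [card_empty, Nat.cast_zero, zero_add]
    nlinarith

lemma char_sum {G ι : Type} [AddCommGroup G] (χ : AddChar G ℂ) (a : ι → G) (s : Finset ι) :
    χ (∑ i ∈ s, a i) = ∏ i ∈ s, χ (a i) := by
  classical
  induction s using Finset.induction_on with
  | empty => simp
  | insert i s hi ih => rw [sum_insert hi, prod_insert hi, AddChar.map_add_eq_mul, ih]

lemma step_poinc {r J Y : ℕ} (hr : 0 < r) (hM : 0 < M) (hp : ∀ i, 0 < p i) (hY : ∀ i, p i ≤ Y)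
    (hY1 : 0 < Y) (hJ : 2 * (M * Y ^ r) ≤ J) (χ : AddChar (∀ i, (ch i).G) ℂ)
    (hχ : χ ((∏ i, p i) • fun i => (ch i).g) ≠ 1) :
    1 ≤ ∑ j : Fin J, (1 / (J : ℝ)) * ‖χ ((j : ℕ) • fun i => (ch i).g) - 1‖ ^ 2 +
      ∑ i, ∑ m : (ch i).Mv, (ch i).wt m / r * ‖χ (Pi.single i ((ch i).z m)) - 1‖ ^ 2 := by
  classical
  have hr' : (0 : ℝ) < r := by exact_mod_cast hr
  set I := univ.filter (fun i => χ (Pi.single i (ch i).g) ≠ 1) with hI
  have n1 : 0 ≤ ∑ j : Fin J, (1 / (J : ℝ)) * ‖χ ((j : ℕ) • fun i => (ch i).g) - 1‖ ^ 2 := by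
    positivity
  have n2 : ∀ i, 0 ≤ ∑ m : (ch i).Mv,
      (ch i).wt m / r * ‖χ (Pi.single i ((ch i).z m)) - 1‖ ^ 2 := fun i =>
    sum_nonneg fun m _ => mul_nonneg (div_nonneg ((ch i).wt_nonneg m) hr'.le) (by positivity)
  by_cases hc : r ≤ I.card
  · have h1 : ∀ i ∈ I, 1 / (r : ℝ) ≤ ∑ m : (ch i).Mv,
        (ch i).wt m / r * ‖χ (Pi.single i ((ch i).z m)) - 1‖ ^ 2 := by
      intro i hi
      have := (ch i).poinc (χ.compAddMonoidHom (AddMonoidHom.single (fun i => (ch i).G) i))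
        (mem_filter.1 hi).2
      have e : ∑ m : (ch i).Mv, (ch i).wt m / r * ‖χ (Pi.single i ((ch i).z m)) - 1‖ ^ 2 =
          (∑ m : (ch i).Mv, (ch i).wt m * ‖χ (Pi.single i ((ch i).z m)) - 1‖ ^ 2) / r := by
        rw [sum_div]
        exact sum_congr rfl fun m _ => by ring
      rw [e]
      exact div_le_div_of_nonneg_right this hr'.le
    have h2 := sum_le_sum h1
    have h3 := sum_le_sum_of_subset_of_nonneg (subset_univ I) (fun i _ _ => n2 i)
    rw [sum_const, nsmul_eq_mul] at h2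
    have h4 : (1 : ℝ) ≤ I.card * (1 / r) := by
      rw [mul_one_div, le_div_iff₀ hr', one_mul]
      exact_mod_cast hc
    linarith
  · have hN : 0 < M * ∏ i ∈ I, p i := Nat.mul_pos hM (prod_pos fun i _ => hp i)
    have h1 : χ (fun i => (ch i).g) ≠ 1 := by
      intro h
      apply hχ
      rw [AddChar.map_nsmul_eq_pow, h, one_pow]
    have h2 : χ (fun i => (ch i).g) ^ (M * ∏ i ∈ I, p i) = 1 := by
      rw [← univ_sum_single (fun i => (ch i).g), char_sum, ← prod_pow]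
      apply prod_eq_one
      intro i _
      by_cases hi : i ∈ I
      · rw [← mul_prod_erase I p hi, ← mul_assoc, pow_mul, ← AddChar.map_nsmul_eq_pow,
          ← Pi.single_smul, (ch i).ord]
        simp
      · have : χ (Pi.single i (ch i).g) = 1 := by
          by_contra h
          exact hi (mem_filter.2 ⟨mem_univ _, h⟩)
        rw [this, one_pow]
    have h3 : ∏ i ∈ I, p i ≤ Y ^ r :=
      (prod_le_pow_card I p Y fun i _ => hY i).trans (Nat.pow_le_pow_right hY1 (by omega))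
    have h4 := char_avg χ (fun i => (ch i).g) hN h1 h2
      ((Nat.mul_le_mul_left 2 (Nat.mul_le_mul_left M h3)).trans hJ)
    have h5 := sum_nonneg (s := univ) fun i _ => n2 i
    linarith

/-- The composed gadget. -/
noncomputable def step (hL : 0 < L) {R s r J Y : ℕ} (hR : 0 < R) (hbR : b = 2 * R) (hφ : 0 ≤ φ)
    (hφ1 : φ ≤ 1) (hp : ∀ i, (p i).Prime) (hinj : Function.Injective p)
    (hco : ∀ i, Nat.Coprime M (p i)) (hs : s ≤ 2 ^ R) (hs0 : 0 < s) (hr : 0 < r) (hM : 0 < M)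
    (hY : ∀ i, p i ≤ Y) (hY1 : 0 < Y) (hJ : 2 * (M * Y ^ r) ≤ J) :
    Gad (s * (b * L)) (b * A) M (φ / 4) (J / s + c / r) where
  G := ∀ i, (ch i).G
  grp := inferInstance
  fin := by classical exact inferInstance
  g := (∏ i, p i) • fun i => (ch i).g
  W := stepW ch
  Mv := Fin J ⊕ (Σ i, (ch i).Mv)
  finM := inferInstance
  wt := Sum.elim (fun _ => 1 / (J : ℝ)) (fun m => (ch m.1).wt m.2 / r)
  z := Sum.elim (fun j => (j : ℕ) • fun i => (ch i).g) (fun m => Pi.single m.1 ((ch m.1).z m.2))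
  cst := Sum.elim (fun _ => J * (b * L)) (fun m => s * (ch m.1).cst m.2)
  W_lt := fun x n _ => by
    obtain ⟨i, q, hq, e⟩ := decomp (b := b) (by omega) hL n
    rw [e, stepW_at ch x _ i hq]
    have h1 := (ch i).W_lt (x i + (n / (b * L)) • (ch i).g) q hq
    have h2 := Nat.mul_le_mul_left b (Nat.succ_le_of_lt h1)
    rw [Nat.mul_succ] at h2
    have := i.2
    omega
  wt_nonneg := fun m => by
    rcases m with j | m
    · simp
    · exact div_nonneg ((ch m.1).wt_nonneg m.2) (Nat.cast_nonneg r)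
  ord := by
    funext i
    simp only [Pi.smul_apply, Pi.zero_apply]
    rw [← mul_prod_erase univ p (mem_univ i), ← mul_nsmul', ← mul_assoc, mul_nsmul,
      (ch i).ord, nsmul_zero]
  poinc := fun χ hχ => by
    rw [Fintype.sum_sum_type, Fintype.sum_sigma]
    exact step_poinc ch hr hM (fun i => (hp i).pos) hY hY1 hJ χ hχ
  close := fun x m => by
    rcases m with j | m
    · exact (step_close_shift ch (by omega) hL x j _).mono (Nat.mul_le_mul_right _ j.2.le)
    · exact step_close_child ch x s m.1 m.2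
  cost := by
    rw [Fintype.sum_sum_type, Fintype.sum_sigma]
    have hJ0 : (0 : ℝ) < J := by
      have : 0 < M * Y ^ r := Nat.mul_pos hM (Nat.pow_pos hY1)
      exact_mod_cast (by omega : 0 < J)
    have hs' : (0 : ℝ) < s := by exact_mod_cast hs0
    have hr' : (0 : ℝ) < r := by exact_mod_cast hr
    have h1 : ∀ i ∈ (univ : Finset (Fin b)), ∑ m : (ch i).Mv,
        (ch i).wt m / r * ((s * (ch i).cst m : ℕ) : ℝ) ≤ s / r * (c * L) := by
      intro i _
      have e : ∑ m : (ch i).Mv, (ch i).wt m / r * ((s * (ch i).cst m : ℕ) : ℝ) =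
          s / r * ∑ m : (ch i).Mv, (ch i).wt m * (ch i).cst m := by
        rw [mul_sum]
        exact sum_congr rfl fun m _ => by push_cast; ring
      rw [e]
      exact mul_le_mul_of_nonneg_left (ch i).cost (by positivity)
    have h2 := sum_le_sum h1
    simp only [Sum.elim_inl, Sum.elim_inr, sum_const, card_univ, Fintype.card_fin,
      nsmul_eq_mul] at h2 ⊢
    have e : ((J : ℝ) / s + c / r) * ((s * (b * L) : ℕ) : ℝ) =
        J * (1 / (J : ℝ) * ((J * (b * L) : ℕ) : ℝ)) + b * (s / r * (c * L)) := by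
      push_cast
      field_simp
    rw [e]
    linarith
  far := fun x j hj S hS => step_far ch hL hR hbR hφ hφ1 hp hinj hco hs hj x hS

end step

end Vale.Agent.P238
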