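import Mathlib
import Vale.Agent.P238.Step
import Vale.Agent.P238.Poincare

/-!
The tower of gadgets, the choice of parameters and the asymptotic lower bound.
-/

namespace Vale.Agent.P238

open Finset

lemma tower {R r J Y Mx k : ℕ} (hR : 0 < R) (hr : 2 ≤ r) (hY1 : 0 < Y)
    (hpr : ∀ j ≤ k * (2 * R), Nat.nth Nat.Prime j ≤ Y) (hJ : 2 * (Mx * Y ^ r) ≤ J) :
    ∀ l ≤ k, ∀ M, 0 < M → M * Y ^ l ≤ Mx →
      (∀ j, 1 ≤ j → j ≤ l * (2 * R) → Nat.Coprime M (Nat.nth Nat.Prime j)) →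
      Nonempty (Gad ((2 ^ R * (2 * R)) ^ l) ((2 * R) ^ l * Mx) M (1 / 4 ^ l)
        (2 * ((J : ℝ) / (2 ^ R : ℕ)) + 1 / r ^ l)) := by
  have hr' : (2 : ℝ) ≤ r := by exact_mod_cast hr
  have hJs : (0 : ℝ) ≤ (J : ℝ) / (2 ^ R : ℕ) := by positivity
  intro l
  induction l with
  | zero =>
    intro _ M hM h1 _
    have : NeZero M := ⟨hM.ne'⟩
    simp only [pow_zero, one_mul, mul_one, div_one] at h1 ⊢
    exact ⟨(leaf Mx M h1).weaken (by linarith)⟩
  | succ l ih =>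
    intro hl M hM h1 h2
    set p : Fin (2 * R) → ℕ := fun i => Nat.nth Nat.Prime (l * (2 * R) + i + 1) with hp
    have hinf := Nat.infinite_setOfPred_prime
    have hpp : ∀ i, (p i).Prime := fun i => Nat.prime_nth_prime _
    have hidx : ∀ i : Fin (2 * R), l * (2 * R) + i + 1 ≤ (l + 1) * (2 * R) := by
      intro i
      have := i.2
      rw [Nat.add_mul l 1]
      omega
    have hpY : ∀ i, p i ≤ Y := fun i =>
      hpr _ ((hidx i).trans (Nat.mul_le_mul_right _ hl))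
    have hinj : Function.Injective p := by
      intro i i' h
      have := Nat.nth_injective hinf h
      exact Fin.ext (by omega)
    have hch : ∀ i, Nonempty (Gad ((2 ^ R * (2 * R)) ^ l) ((2 * R) ^ l * Mx) (M * p i) (1 / 4 ^ l)
        (2 * ((J : ℝ) / (2 ^ R : ℕ)) + 1 / r ^ l)) := by
      intro i
      apply ih (by omega) _ (Nat.mul_pos hM (hpp i).pos)
      · refine le_trans ?_ h1
        rw [pow_succ', mul_assoc]
        exact Nat.mul_le_mul_left _ (Nat.mul_le_mul_right _ (hpY i))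
      · intro j hj1 hj2
        apply Nat.Coprime.mul_left (h2 j hj1 (hj2.trans (Nat.mul_le_mul_right _ (by omega))))
        rw [Nat.coprime_primes (hpp i) (Nat.prime_nth_prime _)]
        intro h
        have := Nat.nth_injective hinf h
        omega
    have hMx : M ≤ Mx := le_trans (Nat.le_mul_of_pos_right M (Nat.pow_pos hY1)) h1
    have D := step (fun i => (hch i).some) (R := R) (s := 2 ^ R) (r := r) (J := J) (Y := Y)
      (by positivity) hR rfl (by positivity)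
      (by rw [div_le_one (by positivity)]; exact one_le_pow₀ (by norm_num)) hpp hinj
      (fun i => h2 _ (by omega) (hidx i)) le_rfl (by positivity) (by omega) hM hpY hY1
      (le_trans (Nat.mul_le_mul_left 2 (Nat.mul_le_mul_right _ hMx)) hJ)
    have e1 : (2 ^ R * (2 * R)) ^ (l + 1) = 2 ^ R * (2 * R * (2 ^ R * (2 * R)) ^ l) := by ring
    have e2 : (2 * R) ^ (l + 1) * Mx = 2 * R * ((2 * R) ^ l * Mx) := by ring
    have e3 : (1 : ℝ) / 4 ^ (l + 1) = 1 / 4 ^ l / 4 := by rw [pow_succ, div_div]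
    rw [e1, e2, e3]
    refine ⟨D.weaken ?_⟩
    have e4 : (1 : ℝ) / r ^ (l + 1) = 1 / r ^ l / r := by rw [pow_succ, div_div]
    rw [e4, add_div]
    have : 2 * ((J : ℝ) / (2 ^ R : ℕ)) / r ≤ (J : ℝ) / (2 ^ R : ℕ) := by
      rw [div_le_iff₀ (by linarith)]
      nlinarith
    linarith

lemma primes_le {a : ℕ} (ha : 8 ≤ a) :
    ∀ j ≤ 2 ^ a * (2 * (12 * a * 2 ^ a)), Nat.nth Nat.Prime j ≤ 2 ^ (5 * a) := by
  intro j hj
  apply Nat.le_of_lt_succ
  apply Nat.nth_lt_of_lt_count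
  have h := Chebyshev.pi_ge (2 ^ (5 * a))
  have hl : 0 < Real.log 2 := Real.log_pos (by norm_num)
  have ha' : (8 : ℝ) ≤ a := by exact_mod_cast ha
  have e1 : Real.log ((2 ^ (5 * a) : ℕ) : ℝ) = 5 * a * Real.log 2 := by
    push_cast; rw [Real.log_pow]; push_cast; ring
  have e2 : Real.log (((2 ^ (5 * a) : ℕ) : ℝ) + 1) ≤ (5 * a + 1) * Real.log 2 := by
    have : (5 * a + 1) * Real.log 2 = Real.log (2 ^ (5 * a + 1)) := by
      rw [Real.log_pow]; push_cast; ring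
    rw [this]
    apply Real.log_le_log (by positivity)
    push_cast
    have : (1 : ℝ) ≤ 2 ^ (5 * a) := one_le_pow₀ (by norm_num)
    rw [pow_succ]
    linarith
  rw [e1, div_le_iff₀ (by positivity)] at h
  have h3 : (((2 ^ (5 * a) : ℕ) : ℝ) - (5 * a + 1)) * Real.log 2 ≤
      (Nat.primeCounting (2 ^ (5 * a)) * (5 * a)) * Real.log 2 := by linarith
  have h4 := le_of_mul_le_mul_right h3 hl
  have h5 : 2 ^ (5 * a) ≤ Nat.primeCounting (2 ^ (5 * a)) * (5 * a) + (5 * a + 1) := by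
    have : ((2 ^ (5 * a) : ℕ) : ℝ) ≤ Nat.primeCounting (2 ^ (5 * a)) * (5 * a) + (5 * a + 1) := by
      linarith
    exact_mod_cast this
  change j < Nat.primeCounting (2 ^ (5 * a))
  by_contra hc
  have h6 : Nat.primeCounting (2 ^ (5 * a)) ≤ 2 ^ a * (2 * (12 * a * 2 ^ a)) := by omega
  have h7 := Nat.mul_le_mul_right (5 * a) h6
  have e3 : 2 ^ (5 * a) = (2 ^ a) ^ 5 := by rw [← pow_mul, mul_comm]
  have h8 : a < 2 ^ a := Nat.lt_two_pow_self
  have h9 : 2 ^ 8 ≤ 2 ^ a := Nat.pow_le_pow_right (by norm_num) ha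
  generalize 2 ^ a = k at *
  have h10 : k * (2 * (12 * a * k)) * (5 * a) ≤ 120 * k ^ 4 := by
    have : a * a ≤ k * k := Nat.mul_le_mul h8.le h8.le
    calc k * (2 * (12 * a * k)) * (5 * a) = 120 * k ^ 2 * (a * a) := by ring
      _ ≤ 120 * k ^ 2 * (k * k) := Nat.mul_le_mul_left _ this
      _ = 120 * k ^ 4 := by ring
  have h11 : k ≤ k ^ 4 := Nat.le_self_pow (by norm_num) k
  have h12 : 256 * k ^ 4 ≤ k ^ 5 := by
    rw [pow_succ' k 4]
    exact Nat.mul_le_mul_right _ h9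
  omega

lemma param {a n : ℕ} (ha : 8 ≤ a) (hn : 2 ^ (25 * a * 4 ^ a) ≤ n) :
    Real.exp (a * 2 ^ a * Real.log 2 / 2) ≤ c1 n := by
  have h8 : a < 2 ^ a := Nat.lt_two_pow_self
  have h9 : 2 ^ 8 ≤ 2 ^ a := Nat.pow_le_pow_right (by norm_num) ha
  have e4 : 4 ^ a = 2 ^ a * 2 ^ a := by rw [← mul_pow]; norm_num
  obtain ⟨k, hk⟩ : ∃ k, k = 2 ^ a := ⟨_, rfl⟩
  have hpr := primes_le ha
  rw [e4] at hn
  rw [← hk] at h8 h9 hn hpr
  obtain ⟨R, hR⟩ : ∃ R, R = 12 * a * k := ⟨_, rfl⟩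
  rw [← hR] at hpr
  have hak : 8 * 256 ≤ a * k := Nat.mul_le_mul ha h9
  have hR' : R = 12 * (a * k) := by rw [hR]; ring
  have hR0 : 0 < R := by omega
  obtain ⟨D⟩ := tower (R := R) (r := k) (J := 2 * (2 * (2 ^ (5 * a)) ^ k * (2 ^ (5 * a)) ^ k))
    (Y := 2 ^ (5 * a)) (Mx := 2 * (2 ^ (5 * a)) ^ k) (k := k) hR0 (by omega) (by positivity) hpr
    le_rfl k le_rfl 2 (by norm_num) le_rfl (by
      intro j hj _
      rw [Nat.coprime_primes Nat.prime_two (Nat.prime_nth_prime _), ← Nat.nth_prime_zero_eq_two]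
      intro h
      have := Nat.nth_injective Nat.infinite_setOfPred_prime h
      omega)
  have hkk : (k : ℝ) ^ k = 2 ^ (a * k) := by
    conv_lhs => rw [hk]
    push_cast
    rw [← pow_mul, ← hk]
  have hc : 2 * (((2 * (2 * (2 ^ (5 * a)) ^ k * (2 ^ (5 * a)) ^ k) : ℕ) : ℝ) / (2 ^ R : ℕ)) +
      1 / (k : ℝ) ^ k ≤ 2 / 2 ^ (a * k) := by
    rw [hkk]
    have : 2 * (((2 * (2 * (2 ^ (5 * a)) ^ k * (2 ^ (5 * a)) ^ k) : ℕ) : ℝ) / (2 ^ R : ℕ)) ≤
        1 / 2 ^ (a * k) := by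
      rw [← mul_div_assoc, div_le_div_iff₀ (by positivity) (by positivity)]
      push_cast
      have e : (2 : ℝ) * (2 * (2 * (2 ^ (5 * a)) ^ k * (2 ^ (5 * a)) ^ k)) * 2 ^ (a * k) =
          2 ^ (11 * (a * k) + 3) := by
        rw [← pow_mul]
        ring
      rw [e, one_mul]
      exact pow_le_pow_right₀ (by norm_num) (by omega)
    have e : (2 : ℝ) / 2 ^ (a * k) = 1 / 2 ^ (a * k) + 1 / 2 ^ (a * k) := by ring
    linarith
  have h2R : 2 * R ≤ 2 ^ R := by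
    have := Nat.lt_two_pow_self (n := R - 1)
    have e : 2 ^ R = 2 * 2 ^ (R - 1) := by
      rw [← pow_succ']; congr 1; omega
    omega
  have hak2 : 256 * (a * k) ≤ a * k * k := by
    rw [mul_comm]; exact Nat.mul_le_mul_left _ h9
  have hA : (2 * R) ^ k * (2 * (2 ^ (5 * a)) ^ k) ≤ 2 ^ (13 * (a * k * k)) := by
    calc (2 * R) ^ k * (2 * (2 ^ (5 * a)) ^ k) ≤ (2 ^ R) ^ k * (2 * (2 ^ (5 * a)) ^ k) :=
          Nat.mul_le_mul_right _ (Nat.pow_le_pow_left h2R k)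
      _ = 2 ^ (12 * (a * k * k) + 5 * (a * k) + 1) := by
          rw [← pow_mul, ← pow_mul, hR]; ring
      _ ≤ 2 ^ (13 * (a * k * k)) := Nat.pow_le_pow_right (by norm_num) (by omega)
  have hK : 2 * (13 * (a * k * k)) + 3 ≤ 2 ^ (3 * a + 5) := by
    have e : 2 ^ (3 * a + 5) = 32 * (k * k * k) := by rw [hk]; ring
    have : a * k * k ≤ k * k * k := Nat.mul_le_mul_right _ (Nat.mul_le_mul_right _ h8.le)
    have h0 : 1 ≤ k * k * k := Nat.one_le_iff_ne_zero.2 (by positivity)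
    omega
  have ha1 : a ≤ a * k := Nat.le_mul_of_pos_right a (by omega)
  have hN : (2 ^ R * (2 * R)) ^ k * (2 * (13 * (a * k * k)) + 3) ≤ n := by
    refine le_trans ?_ hn
    calc (2 ^ R * (2 * R)) ^ k * (2 * (13 * (a * k * k)) + 3)
        ≤ (2 ^ R * 2 ^ R) ^ k * 2 ^ (3 * a + 5) :=
          Nat.mul_le_mul (Nat.pow_le_pow_left (Nat.mul_le_mul_left _ h2R) k) hK
      _ = 2 ^ (24 * (a * k * k) + (3 * a + 5)) := by
          rw [← pow_add, ← pow_mul, ← pow_add, hR]; congr 1; ring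
      _ ≤ 2 ^ (25 * a * (k * k)) := by
          apply Nat.pow_le_pow_right (by norm_num)
          have : 25 * a * (k * k) = 25 * (a * k * k) := by ring
          omega
  have key := gad_lower (D.weaken hc) le_rfl hA hN (by positivity) (by positivity)
  refine le_trans ?_ key
  have hK' : 2 * ((13 * (a * k * k) : ℕ) : ℝ) + 3 ≤ 2 ^ (3 * a + 5) := by exact_mod_cast hK
  have hk8 : 8 * k ≤ a * k := Nat.mul_le_mul_right _ ha
  obtain ⟨w, hw⟩ : ∃ w, a * k = w + (2 * k + 3 * a + 10) := ⟨a * k - (2 * k + 3 * a + 10), by omega⟩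
  have hk4 : 4 * a ≤ k + 8 := by
    have := Nat.lt_two_pow_self (n := a - 2)
    have e : 2 ^ a = 4 * 2 ^ (a - 2) := by
      rw [show 4 = 2 ^ 2 by norm_num, ← pow_add]; congr 1; omega
    omega
  have hw2 : a * k ≤ 2 * w := by omega
  have s1 : Real.exp (a * 2 ^ a * Real.log 2 / 2) ≤ 2 ^ w := by
    have e : (2 : ℝ) ^ w = Real.exp (w * Real.log 2) := by
      rw [Real.exp_nat_mul, Real.exp_log (by norm_num)]
    rw [e]
    apply Real.exp_le_exp.2
    have hl : 0 < Real.log 2 := Real.log_pos (by norm_num)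
    have : (a : ℝ) * 2 ^ a ≤ 2 * w := by
      rw [hk] at hw2
      exact_mod_cast hw2
    nlinarith
  refine s1.trans ?_
  rw [le_div_iff₀ (by positivity)]
  calc (2 : ℝ) ^ w * (16 * (2 / 2 ^ (a * k)) * (2 * ((13 * (a * k * k) : ℕ) : ℝ) + 3))
      ≤ 2 ^ w * (16 * (2 / 2 ^ (a * k)) * 2 ^ (3 * a + 5)) := by gcongr
    _ = 1 / 4 ^ k := by
      rw [hw, show (4 : ℝ) = 2 ^ 2 by norm_num, ← pow_mul]
      field_simp
      ring

theorem lower (a0 : ℕ) (ha0 : 8 ≤ a0) (n : ℕ) (hn : 2 ^ (25 * a0 * 4 ^ a0) ≤ n) :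
    Real.exp (1 / 100 * Real.sqrt (Real.log n * Real.log (Real.log n))) ≤ c1 n := by
  obtain ⟨e, h1, h2⟩ := Nat.exists_not_and_succ_of_not_zero_of_exists
    (p := fun e => n < 2 ^ (25 * (e + a0) * 4 ^ (e + a0))) (by simpa using hn) ⟨n, by
      refine Nat.lt_two_pow_self.trans_le (Nat.pow_le_pow_right (by norm_num) ?_)
      have : 1 ≤ 4 ^ (n + a0) := Nat.one_le_pow _ _ (by norm_num)
      nlinarith⟩
  obtain ⟨a, ha⟩ : ∃ a, a = e + a0 := ⟨_, rfl⟩
  have e1 : e + 1 + a0 = a + 1 := by omega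
  rw [e1] at h2
  rw [← ha] at h1
  have ha8 : 8 ≤ a := by omega
  refine le_trans ?_ (param ha8 (not_lt.1 h1))
  apply Real.exp_le_exp.2
  have ha' : (8 : ℝ) ≤ a := by exact_mod_cast ha8
  have hl1 : Real.log 2 ≤ 1 := by linarith [Real.log_two_lt_d9]
  have hl2 : 0.69 ≤ Real.log 2 := by linarith [Real.log_two_gt_d9]
  have hn1 : 1 < n := lt_of_lt_of_le (Nat.one_lt_two_pow (by positivity)) hn
  have hn' : (1 : ℝ) < n := by exact_mod_cast hn1
  have t0 : 0 < Real.log n := Real.log_pos hn'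
  have h4 : (0 : ℝ) < 4 ^ a := by positivity
  have t1 : Real.log n ≤ 200 * a * 4 ^ a := by
    have : (n : ℝ) ≤ 2 ^ (25 * (a + 1) * 4 ^ (a + 1)) := by exact_mod_cast h2.le
    have h3 := Real.log_le_log (by linarith) this
    rw [Real.log_pow] at h3
    push_cast at h3
    have h5 : (25 : ℝ) * (a + 1) * 4 ^ (a + 1) ≤ 200 * a * 4 ^ a := by
      rw [pow_succ]; nlinarith
    have h6 : (0 : ℝ) ≤ 25 * (a + 1) * 4 ^ (a + 1) := by positivity
    nlinarith
  have t2 : Real.log (Real.log n) ≤ 4 * a := by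
    have h8 : (a : ℝ) ≤ 2 ^ a := by exact_mod_cast (Nat.lt_two_pow_self (n := a)).le
    have h9 : (2 : ℝ) ^ 8 ≤ 2 ^ a := pow_le_pow_right₀ (by norm_num) ha8
    have h5 : (200 : ℝ) * a * 4 ^ a ≤ 2 ^ (4 * a) := by
      have e : (2 : ℝ) ^ (4 * a) = 2 ^ a * 2 ^ a * 4 ^ a := by
        rw [show (4 : ℝ) = 2 ^ 2 by norm_num, ← pow_mul]; ring
      rw [e]
      apply mul_le_mul_of_nonneg_right _ h4.le
      apply mul_le_mul _ h8 (by positivity) (by positivity)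
      linarith
    have h3 := Real.log_le_log t0 (t1.trans h5)
    rw [Real.log_pow] at h3
    push_cast at h3
    nlinarith
  have t3 : Real.log n * Real.log (Real.log n) ≤ (29 * (a * 2 ^ a)) ^ 2 := by
    have e : ((29 : ℝ) * (a * 2 ^ a)) ^ 2 = 841 * (a * a * 4 ^ a) := by
      rw [show (4 : ℝ) = 2 ^ 2 by norm_num, ← pow_mul]; ring
    have h5 : (0 : ℝ) ≤ a * a * 4 ^ a := by positivity
    calc Real.log n * Real.log (Real.log n) ≤ Real.log n * (4 * a) :=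
          mul_le_mul_of_nonneg_left t2 t0.le
      _ ≤ 200 * a * 4 ^ a * (4 * a) := mul_le_mul_of_nonneg_right t1 (by positivity)
      _ ≤ _ := by rw [e]; nlinarith
  have t4 : Real.sqrt (Real.log n * Real.log (Real.log n)) ≤ 29 * (a * 2 ^ a) :=
    Real.sqrt_le_iff.2 ⟨by positivity, t3⟩
  have h5 : (0 : ℝ) ≤ a * 2 ^ a := by positivity
  nlinarith

end Vale.Agent.P238
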