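import Mathlib
import Vale.Agent.P238.Cut
import Vale.Agent.P238.Poincare

/-!
The Ostrovsky-Rabani upper bound.
-/

namespace Vale.Agent.P238

open Finset

/-- The first `L` symbols. -/
def word (L : ℕ) (x : ℕ → Bool) : List Bool := (List.range L).map x

/-- Drop the first `q` symbols. -/
def sh (q : ℕ) (x : ℕ → Bool) : ℕ → Bool := fun r => x (q + r)

/-- `y` arises from `x` by inserting a symbol at position `p`. -/
def Ins (p : ℕ) (x y : ℕ → Bool) : Prop :=
  (∀ q < p, y q = x q) ∧ ∀ q, p ≤ q → y (q + 1) = x q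

lemma Ins.sh {p : ℕ} {x y : ℕ → Bool} (h : Ins p x y) (q : ℕ) : Ins (p - q) (sh q x) (sh q y) :=
  ⟨fun r hr => h.1 _ (by omega), fun r hr => h.2 (q + r) (by omega)⟩

lemma ED_triangle (x y z : List Bool) : ED x z ≤ ED x y + ED y z :=
  ED_le_of_path (path_trans (path_ED x y) _ _ (path_ED y z))

lemma ED_symm (x y : List Bool) : ED x y = ED y x :=
  le_antisymm (ED_le_of_path (path_symm _ (path_ED y x)))
    (ED_le_of_path (path_symm _ (path_ED x y)))

lemma ED_le_close {u v : ℕ → Bool} {L k : ℕ} (h : Close u v L k) :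
    ED (word L u) (word L v) ≤ 2 * k := by
  obtain ⟨l, h1, h2, h3⟩ := h
  have := ED_le h1 h2
  simp only [List.length_map, List.length_range] at this
  unfold word
  omega

lemma close_ED (u v : ℕ → Bool) (L : ℕ) : Close u v L (ED (word L u) (word L v)) := by
  obtain ⟨l, h1, h2, h3⟩ := common_of_ED (word L u) (word L v)
  refine ⟨l, h1, h2, ?_⟩
  simp only [word, List.length_map, List.length_range] at h3 ⊢
  omega

lemma ED_sh (L q t : ℕ) (x : ℕ → Bool) : ED (word L (sh q x)) (word L (sh (q + t) x)) ≤ 2 * t :=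
  ED_le_close (close_shift t fun p _ => by simp only [sh]; congr 1; omega)

/-- An embedding at block length `L` with Lipschitz constant `α`. -/
structure Emb (L : ℕ) (α : ℝ) (d : (ℕ → Bool) → (ℕ → Bool) → ℝ) : Prop where
  cut : IsCut d
  lip : ∀ p x y, Ins p x y → d x y ≤ α
  loc : ∀ x y, (∀ q < 2 * L, y q = x q) → d x y ≤ 0
  low : ∀ x y, (ED (word L x) (word L y) : ℝ) ≤ d x y

lemma emb_base : ∃ d, Emb 1 2 d := by
  refine ⟨fun x y => if x 0 = y 0 then 0 else 2, ⟨Unit, inferInstance, fun _ => 2,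
    fun _ x => x 0, fun _ => by norm_num, fun x y => by simp⟩, fun p x y _ => ?_,
    fun x y h => ?_, fun x y => ?_⟩
  · split_ifs <;> norm_num
  · simp [h 0 (by norm_num)]
  · split_ifs with h
    · have := ED_le_close (close_refl (u := x) (v := y) (L := 1) fun p hp => by
        have : p = 0 := by omega
        rw [this, h])
      exact_mod_cast this
    · exact_mod_cast ED_le_close (close_triv x y 1)

lemma emb_step {e b : ℕ} {α : ℝ} (hα : 0 ≤ α) (hb : 3 ≤ b) {d : (ℕ → Bool) → (ℕ → Bool) → ℝ}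
    (hd : Emb (2 ^ e) α d) :
    ∃ d', Emb (b * 2 ^ e) (20 * ((e + 2) * (2 * b + 8 * (e + 2) * α))) d' := by
  obtain ⟨L, hL⟩ : ∃ L, L = 2 ^ e := ⟨_, rfl⟩
  have hL0 : 0 < L := by rw [hL]; positivity
  have hs2 : ∀ j < e + 2, 2 ^ j ≤ 2 * L := by
    intro j hj
    rw [hL, ← pow_succ']
    exact Nat.pow_le_pow_right (by norm_num) (by omega)
  have hT : 2 * L < 2 ^ (e + 2) := by
    rw [hL, ← pow_succ']
    exact Nat.pow_lt_pow_right (by norm_num) (by omega)
  rw [← hL] at hd ⊢
  have hl2 : 0 < Real.log 2 := Real.log_pos (by norm_num)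
  have hl1 : Real.log 2 ≤ 1 := by linarith [Real.log_two_lt_d9]
  have hex := fun j : ℕ => hd.cut.multiset (lam := (j + 1) * Real.log 2 / 2 ^ j)
    (by positivity) (2 ^ j)
  choose D hD0 hD1 hD2 hD3 using hex
  set F : ℕ → (ℕ → Bool) → ℕ → ℕ → Bool := fun i x t => sh (i * L + t) x with hF
  have hearly : ∀ i j x y, j < e + 2 → (∀ q < i * L + 4 * L, y q = x q) →
      D j (F i x) (F i y) ≤ 0 := by
    intro i j x y hj h
    refine (hD1 j _ _).trans (mul_nonpos_of_nonneg_of_nonpos (by positivity) ?_)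
    apply sum_nonpos
    intro t ht
    have := hs2 j hj
    have := mem_range.1 ht
    exact hd.loc _ _ fun q hq => h _ (by omega)
  refine ⟨fun x y => 20 * ∑ j ∈ range (e + 2), ∑ i ∈ range b, D j (F i x) (F i y), ?_,
    fun p x y h => ?_, fun x y h => ?_, fun x y => ?_⟩
  · refine IsCut.smul (d := fun x y => ∑ j ∈ range (e + 2), ∑ i ∈ range b, D j (F i x) (F i y))
      ?_ (by norm_num)
    exact isCut_range _ fun j => isCut_range _ fun i => (hD0 j).comap (F i)
  · apply mul_le_mul_of_nonneg_left _ (by norm_num)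
    have h1 : ∀ j ∈ range (e + 2), ∑ i ∈ range b, D j (F i x) (F i y) ≤
        2 * b + 8 * (e + 2) * α := by
      intro j hj
      have hj' := mem_range.1 hj
      have hc : 0 ≤ 2 * ((e : ℝ) + 2) * α := by positivity
      have h2 : ∀ i ∈ range b, D j (F i x) (F i y) ≤
          2 + 2 * (e + 2) * α * (if i ∈ Icc (p / L - 3) (p / L) then 1 else 0) := by
        intro i _
        by_cases hi : i ∈ Icc (p / L - 3) (p / L)
        · simp only [hi, if_true, mul_one]
          have h3 : ∑ t ∈ range (2 ^ j), d (F i x t) (F i y t) ≤ ∑ t ∈ range (2 ^ j), α :=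
            sum_le_sum fun t _ => hd.lip _ _ _ (h.sh _)
          simp only [sum_const, card_range, nsmul_eq_mul] at h3
          push_cast at h3
          have h4 := (hD1 j _ _).trans (mul_le_mul_of_nonneg_left h3 (by positivity))
          have e1 : 2 * (((j : ℝ) + 1) * Real.log 2 / 2 ^ j) * (2 ^ j * α) =
              2 * ((j + 1) * Real.log 2) * α := by field_simp
          rw [e1] at h4
          have h5 : (j : ℝ) + 1 ≤ e + 2 := by exact_mod_cast hj'
          have h6 : ((j : ℝ) + 1) * Real.log 2 ≤ e + 2 := by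
            have : (0 : ℝ) ≤ j + 1 := by positivity
            nlinarith
          have h7 : 2 * (((j : ℝ) + 1) * Real.log 2) * α ≤ 2 * (e + 2) * α := by gcongr
          linarith
        · simp only [hi, if_false, mul_zero, add_zero]
          rw [mem_Icc, not_and_or] at hi
          have e1 := Nat.div_add_mod p L
          have e2 := Nat.mod_lt p hL0
          rcases hi with hi | hi
          · have h3 : (i + 4) * L ≤ p / L * L := Nat.mul_le_mul_right _ (by omega)
            rw [Nat.add_mul, Nat.mul_comm (p / L)] at h3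
            have := hearly i j x y hj' fun q hq => h.1 q (by omega)
            linarith
          · have h3 : (p / L + 1) * L ≤ i * L := Nat.mul_le_mul_right _ (by omega)
            rw [Nat.add_mul, Nat.mul_comm (p / L)] at h3
            apply hD2
            intro t
            funext r
            have := h.2 (i * L + t + r) (by omega)
            simp only [hF, sh]
            rw [← this]
            congr 1
            omega
      refine (sum_le_sum h2).trans ?_
      rw [sum_add_distrib, ← mul_sum, sum_boole]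
      have h3 : ((range b).filter (fun i => i ∈ Icc (p / L - 3) (p / L))).card ≤ 4 := by
        refine (card_le_card (t := Icc (p / L - 3) (p / L)) fun i hi => (mem_filter.1 hi).2).trans ?_
        rw [Nat.card_Icc]
        omega
      have h4 : (((range b).filter (fun i => i ∈ Icc (p / L - 3) (p / L))).card : ℝ) ≤ 4 := by
        exact_mod_cast h3
      have h5 := mul_le_mul_of_nonneg_left h4 hc
      simp only [sum_const, card_range, nsmul_eq_mul]
      linarith
    refine (sum_le_sum h1).trans (le_of_eq ?_)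
    rw [sum_const, card_range, nsmul_eq_mul]
    push_cast
    ring
  · apply mul_nonpos_of_nonneg_of_nonpos (by norm_num)
    apply sum_nonpos
    intro j hj
    apply sum_nonpos
    intro i hi
    apply hearly i j x y (mem_range.1 hj)
    intro q hq
    apply h
    have h1 : (i + 4) * L ≤ (2 * b) * L := Nat.mul_le_mul_right _ (by have := mem_range.1 hi; omega)
    rw [Nat.add_mul, Nat.mul_assoc] at h1
    omega
  · have h1 := ED_le_close (close_blocks (u := x) (v := y) L
      (fun i => ED (word L (sh (i * L) x)) (word L (sh (i * L) y))) b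
      fun i _ => close_ED (sh (i * L) x) (sh (i * L) y) L)
    have h2 : (ED (word (b * L) x) (word (b * L) y) : ℝ) ≤
        2 * ∑ i ∈ range b, (ED (word L (sh (i * L) x)) (word L (sh (i * L) y)) : ℝ) := by
      exact_mod_cast h1
    have h3 : ∀ i ∈ range b, (ED (word L (sh (i * L) x)) (word L (sh (i * L) y)) : ℝ) ≤
        10 * ∑ j ∈ range (e + 2), D j (F i x) (F i y) := by
      intro i _
      have hk2 : ED (word L (sh (i * L) x)) (word L (sh (i * L) y)) ≤ 2 * L :=
        ED_le_close (close_triv _ _ L)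
      obtain ⟨k, hk⟩ : ∃ k, k = ED (word L (sh (i * L) x)) (word L (sh (i * L) y)) := ⟨_, rfl⟩
      rw [← hk] at hk2 ⊢
      have hnn : ∀ j, 0 ≤ D j (F i x) (F i y) := fun j => (hD0 j).nonneg _ _
      rcases Nat.eq_zero_or_pos k with h0 | h0
      · rw [h0]
        have := sum_nonneg (s := range (e + 2)) fun j _ => hnn j
        push_cast
        linarith
      obtain ⟨j, j1, j2⟩ := Nat.exists_not_and_succ_of_not_zero_of_exists
        (p := fun j => k + 4 < 5 * 2 ^ j) (by simp; omega) ⟨k, by
          have := Nat.lt_two_pow_self (n := k)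
          omega⟩
      rw [pow_succ] at j2
      have hp : 0 < 2 ^ j := by positivity
      have hj : j < e + 2 := (Nat.pow_lt_pow_iff_right (a := 2) (by norm_num)).1 (by omega)
      have h4 := hD3 j (F i x) (F i y) (2 ^ j) (by
        intro t ht t' ht'
        refine le_trans ?_ (hd.low _ _)
        have a1 := ED_sh L (i * L) t x
        have a2 := ED_sh L (i * L) t' y
        rw [ED_symm] at a2
        have a3 := ED_triangle (word L (sh (i * L) x)) (word L (sh (i * L + t) x))
          (word L (sh (i * L) y))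
        have a4 := ED_triangle (word L (sh (i * L + t) x)) (word L (sh (i * L + t') y))
          (word L (sh (i * L) y))
        have : 2 ^ j ≤ ED (word L (sh (i * L + t) x)) (word L (sh (i * L + t') y)) := by omega
        exact_mod_cast this)
      have e1 : Real.exp (-(((j : ℝ) + 1) * Real.log 2 / 2 ^ j * 2 ^ j)) = 1 / (2 * 2 ^ j) := by
        rw [div_mul_cancel₀ _ (by positivity), Real.exp_neg, ← Nat.cast_succ, Real.exp_nat_mul,
          Real.exp_log (by norm_num), pow_succ', one_div]
      rw [e1] at h4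
      push_cast at h4
      have e2 : 2 * (2 : ℝ) ^ j - 2 * (2 ^ j) ^ 2 * (1 / (2 * 2 ^ j)) = 2 ^ j := by
        field_simp
        ring
      rw [e2] at h4
      have h5 := single_le_sum (f := fun j => D j (F i x) (F i y)) (fun j _ => hnn j)
        (mem_range.2 hj)
      have h6 : (k : ℝ) ≤ 10 * 2 ^ j := by
        have : k ≤ 10 * 2 ^ j := by omega
        exact_mod_cast this
      linarith
    have h4 := sum_le_sum h3
    rw [← mul_sum, sum_comm] at h4
    linarith

lemma Emb.mono {L : ℕ} {α α' : ℝ} {d : (ℕ → Bool) → (ℕ → Bool) → ℝ} (h : Emb L α d)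
    (hα : α ≤ α') : Emb L α' d :=
  ⟨h.cut, fun p x y hp => (h.lip p x y hp).trans hα, h.loc, h.low⟩

lemma emb_tower {a J : ℕ} (ha : 2 ≤ a) : ∀ j ≤ J,
    ∃ d, Emb (2 ^ (a * j)) ((200 * ((a * J : ℕ) + 2 : ℝ) ^ 2) ^ j * 2 ^ a) d := by
  have hb : (4 : ℝ) ≤ 2 ^ a := by
    have := pow_le_pow_right₀ (show (1 : ℝ) ≤ 2 by norm_num) ha
    linarith
  intro j
  induction j with
  | zero =>
    intro _
    obtain ⟨d, hd⟩ := emb_base
    exact ⟨d, by simpa using hd.mono (by linarith)⟩
  | succ j ih =>
    intro hj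
    obtain ⟨d, hd⟩ := ih (by omega)
    have hb' : 3 ≤ 2 ^ a := by
      have : (3 : ℝ) ≤ 2 ^ a := by linarith
      exact_mod_cast this
    obtain ⟨d', hd'⟩ := emb_step (b := 2 ^ a) (by positivity) hb' hd
    have e : 2 ^ a * 2 ^ (a * j) = 2 ^ (a * (j + 1)) := by rw [← pow_add]; congr 1; ring
    rw [e] at hd'
    refine ⟨d', hd'.mono ?_⟩
    have h1 : ((a * j : ℕ) : ℝ) + 2 ≤ (a * J : ℕ) + 2 := by
      have : a * j ≤ a * J := Nat.mul_le_mul_left _ (by omega)
      exact_mod_cast Nat.add_le_add_right this 2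
    have h0 : (0 : ℝ) ≤ ((a * j : ℕ) : ℝ) := Nat.cast_nonneg _
    generalize ((a * J : ℕ) : ℝ) + 2 = T at *
    have hT : 2 ≤ T := by linarith
    have h2 : (1 : ℝ) ≤ (200 * T ^ 2) ^ j := one_le_pow₀ (by nlinarith)
    rw [pow_succ (200 * T ^ 2)]
    generalize (200 * T ^ 2) ^ j = Z at *
    push_cast
    generalize (2 : ℝ) ^ a = B at *
    push_cast at h1 h0
    have h3 : 0 ≤ Z * B := by positivity
    have h4 : B ≤ Z * B := by nlinarith
    calc 20 * (((a : ℝ) * j + 2) * (2 * B + 8 * (a * j + 2) * (Z * B)))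
        ≤ 20 * (T * (2 * (Z * B) + 8 * T * (Z * B))) := by gcongr
      _ ≤ Z * (200 * T ^ 2) * B := by nlinarith [mul_nonneg h3 (by linarith : 0 ≤ T - 1)]

/-- A list as a zero-padded sequence. -/
def ext (l : List Bool) : ℕ → Bool := fun q => l.getD q false

lemma ins_ext (u v : List Bool) (a : Bool) : Ins u.length (ext (u ++ v)) (ext (u ++ a :: v)) := by
  constructor
  · intro q hq
    simp [ext, List.getElem?_append_left hq]
  · intro q hq
    have e : q + 1 - u.length = (q - u.length) + 1 := by omega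
    simp [ext, List.getElem?_append_right hq,
      List.getElem?_append_right (show u.length ≤ q + 1 by omega), e]

lemma Emb.path {L : ℕ} {α : ℝ} {d : (ℕ → Bool) → (ℕ → Bool) → ℝ} (h : Emb L α d) (hα : 0 ≤ α) :
    ∀ (k : ℕ) (x y : List Bool), Path k x y → d (ext x) (ext y) ≤ 2 * α * k := by
  intro k
  induction k with
  | zero => intro x y hp; rw [path_zero_eq hp, h.cut.self]; simp
  | succ k ih =>
    intro x z hp
    obtain ⟨y, h1, u, v, a, b, h2⟩ := path_succ_inv hp
    have h3 := ih x y h1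
    have h4 := h.cut.triangle (ext x) (ext y) (ext z)
    have ia := h.lip _ _ _ (ins_ext u v a)
    have ib := h.lip _ _ _ (ins_ext u v b)
    have ia' := ia
    rw [h.cut.symm] at ia'
    have h5 := h.cut.triangle (ext (u ++ a :: v)) (ext (u ++ v)) (ext (u ++ b :: v))
    push_cast
    rcases h2 with ⟨rfl, rfl⟩ | ⟨rfl, rfl⟩ | ⟨rfl, rfl⟩ <;> linarith

lemma word_ext (l : List Bool) : word l.length (ext l) = l := by
  apply List.ext_getElem
  · simp [word]
  · intro i h1 h2
    simp [word, ext, List.getElem?_eq_getElem h2]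

lemma ED_pad_up (r x y : List Bool) : ED (r ++ x) (r ++ y) ≤ ED x y := by
  induction r with
  | nil => exact le_rfl
  | cons a r ih => exact (ED_le_of_path (path_cons a (path_ED _ _))).trans ih

lemma ED_pad_down (r : List Bool) {x y : List Bool} (h : x.length = y.length) :
    ED x y ≤ 2 * ED (r ++ x) (r ++ y) := by
  obtain ⟨l, h1, h2, h3⟩ := common_of_ED (r ++ x) (r ++ y)
  have g1 := h1.drop r.length
  have g2 := h2.drop r.length
  rw [List.drop_left' rfl] at g1 g2
  have := ED_le g1 g2
  simp only [List.length_append, List.length_drop] at h3 this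
  omega

lemma c1_le_of_emb {L n : ℕ} {α : ℝ} {d : (ℕ → Bool) → (ℕ → Bool) → ℝ} (h : Emb L α d)
    (hα : 0 ≤ α) (hn : n ≤ L) : c1 n ≤ 4 * α := by
  set r := List.replicate (L - n) false with hr
  obtain ⟨f, hf⟩ := (h.cut.comap (fun x : Fin n → Bool => ext (r ++ List.ofFn x))).embed
  have hlen : ∀ x : Fin n → Bool, (r ++ List.ofFn x).length = L := by
    intro x
    simp only [hr, List.length_append, List.length_replicate, List.length_ofFn]
    omega
  have up : ∀ x y, ‖f x - f y‖ ≤ 2 * α * ED (List.ofFn x) (List.ofFn y) := by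
    intro x y
    rw [hf]
    refine (h.path hα _ _ _ (path_ED _ _)).trans (mul_le_mul_of_nonneg_left ?_ (by positivity))
    exact_mod_cast ED_pad_up _ _ _
  have low : ∀ x y, (ED (List.ofFn x) (List.ofFn y) : ℝ) ≤ 2 * ‖f x - f y‖ := by
    intro x y
    rw [hf]
    have h1 := h.low (ext (r ++ List.ofFn x)) (ext (r ++ List.ofFn y))
    have e1 := word_ext (r ++ List.ofFn x)
    have e2 := word_ext (r ++ List.ofFn y)
    rw [hlen] at e1 e2
    rw [e1, e2] at h1
    have h2 : (ED (List.ofFn x) (List.ofFn y) : ℝ) ≤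
        2 * ED (r ++ List.ofFn x) (r ++ List.ofFn y) := by
      exact_mod_cast ED_pad_down r (by simp)
    linarith
  have hpos : ∀ x y : Fin n → Bool, x ≠ y → (0 : ℝ) < ED (List.ofFn x) (List.ofFn y) := by
    intro x y hxy
    exact_mod_cast ED_pos fun e => hxy (List.ofFn_injective e)
  have hinj : Function.Injective f := by
    intro x y hxy
    by_contra hne
    have h1 := low x y
    have h2 := hpos x y hne
    rw [hxy, sub_self, norm_zero] at h1
    linarith
  have hle : distortion n f ≤ 4 * α := by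
    have e : 4 * α = 2 * α * 2 := by ring
    rw [e]
    apply mul_le_mul _ _ (Real.iSup_nonneg fun p => by positivity) (by positivity)
    · refine Real.iSup_le (fun p => ?_) (by positivity)
      rw [div_le_iff₀ (hpos _ _ p.2)]
      exact up _ _
    · refine Real.iSup_le (fun p => ?_) (by positivity)
      rw [div_le_iff₀ (norm_pos_iff.2 (sub_ne_zero.2 fun e => p.2 (hinj e)))]
      exact low _ _
  refine le_trans (csInf_le ⟨0, ?_⟩ ⟨f, hinj, rfl⟩) hle
  rintro _ ⟨g, hg, rfl⟩
  obtain ⟨a, b, ha, hb, hab, -⟩ := distortion_spec hg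
  rw [hab]
  positivity

theorem upper (n : ℕ) (hn : Real.exp (Real.exp 10) ≤ n) :
    c1 n ≤ Real.exp (20 * Real.sqrt (Real.log n * Real.log (Real.log n))) := by
  have hn0 : (0 : ℝ) < n := (Real.exp_pos _).trans_le hn
  have t1 : Real.exp 10 ≤ Real.log n := (Real.le_log_iff_exp_le hn0).2 hn
  have hnt : Real.exp (Real.log n) = n := Real.exp_log hn0
  generalize Real.log n = t at *
  have t0 : 0 < t := (Real.exp_pos _).trans_le t1
  have u1 : 10 ≤ Real.log t := (Real.le_log_iff_exp_le t0).2 t1
  have htu : Real.exp (Real.log t) = t := Real.exp_log t0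
  generalize Real.log t = u at *
  have ut : u + 1 ≤ t := by rw [← htu]; exact Real.add_one_le_exp u
  have hr2 : Real.sqrt (t * u) ^ 2 = t * u := Real.sq_sqrt (by positivity)
  have hru : u ≤ Real.sqrt (t * u) := Real.le_sqrt_of_sq_le (by nlinarith)
  have hrt : Real.sqrt (t * u) ≤ t := Real.sqrt_le_iff.2 ⟨t0.le, by nlinarith⟩
  generalize Real.sqrt (t * u) = r at *
  have r0 : 0 < r := by linarith
  obtain ⟨a, a1, a2⟩ : ∃ a : ℕ, r ≤ a ∧ (a : ℝ) ≤ r + 1 :=
    ⟨⌈r⌉₊, Nat.le_ceil r, (Nat.ceil_lt_add_one r0.le).le⟩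
  obtain ⟨J, J1, J2⟩ : ∃ J : ℕ, 2 * t / r ≤ J ∧ (J : ℝ) ≤ 2 * t / r + 1 :=
    ⟨⌈2 * t / r⌉₊, Nat.le_ceil _, (Nat.ceil_lt_add_one (by positivity)).le⟩
  have ha : 2 ≤ a := by
    have : (2 : ℝ) ≤ a := by linarith
    exact_mod_cast this
  have hl1 : Real.log 2 ≤ 1 := by linarith [Real.log_two_lt_d9]
  have hl2 : 0.69 ≤ Real.log 2 := by linarith [Real.log_two_gt_d9]
  have hq : 2 * t / r * r = 2 * t := by field_simp
  have hq0 : 0 ≤ 2 * t / r := by positivity
  have hqu : 2 * t / r * u = 2 * r := by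
    field_simp
    linarith
  generalize 2 * t / r = w at *
  have hw : w ≤ t := by nlinarith
  have h1 : 2 * t ≤ a * J := by
    calc 2 * t = r * w := by linarith
      _ ≤ a * J := mul_le_mul a1 J1 hq0 (by positivity)
  have h2 : (a : ℝ) * J + 2 ≤ 5 * t := by
    have : (a : ℝ) * J ≤ (r + 1) * (w + 1) := mul_le_mul a2 J2 (by positivity) (by positivity)
    nlinarith
  have e2 : ∀ m : ℕ, (2 : ℝ) ^ m = Real.exp (m * Real.log 2) := by
    intro m
    rw [Real.exp_nat_mul, Real.exp_log (by norm_num)]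
  have hnL : n ≤ 2 ^ (a * J) := by
    have : (n : ℝ) ≤ 2 ^ (a * J) := by
      rw [e2, ← hnt]
      apply Real.exp_le_exp.2
      push_cast
      nlinarith
    exact_mod_cast this
  obtain ⟨d, hd⟩ := emb_tower (J := J) ha J le_rfl
  refine (c1_le_of_emb hd (by positivity) hnL).trans ?_
  have h3 : 200 * ((a * J : ℕ) + 2 : ℝ) ^ 2 ≤ Real.exp (3 * u) := by
    have e : Real.exp (3 * u) = t ^ 2 * t := by
      rw [show 3 * u = ((3 : ℕ) : ℝ) * u by norm_num, Real.exp_nat_mul, htu]; ring
    have e10 : (5000 : ℝ) ≤ Real.exp 10 := by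
      have : Real.exp 10 = Real.exp 1 ^ 10 := by
        rw [← Real.exp_nat_mul]; norm_num
      rw [this]
      have h := Real.exp_one_gt_d9
      calc (5000 : ℝ) ≤ 2.7 ^ 10 := by norm_num
        _ ≤ Real.exp 1 ^ 10 := pow_le_pow_left₀ (by norm_num) (by linarith) 10
    rw [e]
    push_cast
    have h4 : ((a : ℝ) * J + 2) ^ 2 ≤ (5 * t) ^ 2 := pow_le_pow_left₀ (by positivity) h2 2
    nlinarith [sq_nonneg t]
  have h4 : (200 * ((a * J : ℕ) + 2 : ℝ) ^ 2) ^ J ≤ Real.exp (J * (3 * u)) := by
    rw [Real.exp_nat_mul]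
    exact pow_le_pow_left₀ (by positivity) h3 J
  calc 4 * ((200 * ((a * J : ℕ) + 2 : ℝ) ^ 2) ^ J * 2 ^ a)
      ≤ 4 * (Real.exp (J * (3 * u)) * 2 ^ a) := by gcongr
    _ = Real.exp (J * (3 * u) + (a + 2 : ℕ) * Real.log 2) := by
      rw [Real.exp_add, ← e2]; ring
    _ ≤ Real.exp (20 * r) := by
      apply Real.exp_le_exp.2
      push_cast
      have h5 : (J : ℝ) * u ≤ (w + 1) * u := mul_le_mul_of_nonneg_right J2 (by linarith)
      have h6 : ((a : ℝ) + 2) * Real.log 2 ≤ a + 2 := by
        have : (0 : ℝ) ≤ a + 2 := by positivity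
        nlinarith
      nlinarith

end Vale.Agent.P238
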